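import Vale.Agent.P330.W.H170.LocAT
import Vale.Agent.P330.W.H972.Match
import Vale.Agent.P330.W.H624.Package
import Vale.Agent.P330.H143.Exp

/-!
# The absolute half of the outer code

`exists_abs`: for the absolute numbers `n` (of `J`-letters) and `nl` (of letters) there are an
absolute number `m = j * t` and local codes of length `2 ^ m` such that for every `EData` with `nl`
letters the words of length `t` in `2 ^ j` letters (`labels`) satisfy all the spectral hypotheses of
the local tester and of the Tanner codes.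
-/

set_option linter.unusedSectionVars false
set_option linter.style.haveILetI false

namespace Vale.Agent.P330.W

open Finset
open Vale.Agent.P330.W.H709 (CodeAT InT ExpP)
open Vale.Agent.P330.W.H972 (IsInfo expP_labels labels exists_len expP_left_inv expP_right
  expP_right_inv)
open Vale.Agent.P330.H143 (EData lz base_left base_lt loss)
open Vale.Agent.P330.TAN (SpecGap)
open scoped BigOperators

/-- The absolute constants and codes. -/
structure Abs (n nl : ℕ) where
  /-- bits of a letter, length of the words -/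
  j : ℕ
  t : ℕ
  hm : 64 ≤ j * t
  hj : 2 * nl ≤ 2 ^ j
  ht : 0 < t
  /-- the check spaces -/
  P : Bool → Submodule (ZMod 2) (Fin (2 ^ (j * t)) → ZMod 2)
  /-- the information sets of the check spaces -/
  B : Bool → Finset (Fin (2 ^ (j * t)))
  b0 : Fin (2 ^ (j * t))
  card_B : ∀ i, (B i).card = Module.finrank (ZMod 2) (P i)
  disj : Disjoint (B false) (B true)
  b0_notMem : ∀ i, b0 ∉ B i
  info : ∀ i, IsInfo (P i) (B i)
  dist : ∀ i, DistGe (P i) (2 ^ (j * t - 15))
  at_ : ∀ (F : Type) [Field F] [Algebra (ZMod 2) F] (X : Type)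
    (c d : Fin (2 ^ (j * t)) → F), (∀ a, c a ≠ 0) → (∀ a, d a ≠ 0) → ∀ i i',
    CodeAT X (scal c (P i)) (scal d (P i'))
      ((2 ^ (j * t) : ℕ) / (2 ^ 77 * (j * t) ^ 4 : ℕ) : ℝ)
  spec : 4 * ((2 * (nl : ℝ) * √(loss n nl) + (2 ^ j - 2 * nl : ℕ)) ^ 2) ^ t ≤
    ((2 ^ (j * t) : ℕ) / (2 ^ 77 * (j * t) ^ 4 : ℕ) : ℝ) ^ 2

namespace Abs

variable {n nl : ℕ} (A : Abs n nl)

/-- the logarithm of the number of labels -/
def m : ℕ := A.j * A.t

/-- the agreement constant (times the number of labels) -/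
noncomputable def kap : ℝ := ((2 ^ (A.j * A.t) : ℕ) / (2 ^ 77 * (A.j * A.t) ^ 4 : ℕ) : ℝ)

/-- the spectral constant of the local tester -/
noncomputable def Lc : ℝ := ((2 * (nl : ℝ) * √(loss n nl) + (2 ^ A.j - 2 * nl : ℕ)) ^ 2) ^ A.t

/-- the normalised spectral constant -/
noncomputable def lam : ℝ := 1 / (2 ^ 78 * (A.j * A.t : ℕ) ^ 4)

theorem kap_pos : 0 < A.kap := by
  have := A.hm
  unfold kap
  have h : 0 < A.j * A.t := by omega
  have h1 : 0 < (2 ^ 77 * (A.j * A.t) ^ 4 : ℕ) := by positivity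
  have h2 : (0 : ℝ) < (2 ^ 77 * (A.j * A.t) ^ 4 : ℕ) := by exact_mod_cast h1
  positivity

theorem Lc_nonneg : 0 ≤ A.Lc := by unfold Lc; positivity

theorem four_Lc_le : 4 * A.Lc ≤ A.kap ^ 2 := A.spec

theorem lam_pos : 0 < A.lam := by
  have := A.hm
  unfold lam
  have h : 0 < A.j * A.t := by omega
  have h2 : (0 : ℝ) < (A.j * A.t : ℕ) := by exact_mod_cast h
  positivity

theorem kap_eq : A.kap = 2 * A.lam * 2 ^ (A.j * A.t) := by
  have := A.hm
  have h : 0 < A.j * A.t := by omega
  have h2 : (0 : ℝ) < (A.j * A.t : ℕ) := by exact_mod_cast h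
  unfold kap lam
  push_cast at h2 ⊢
  field_simp
  norm_num

theorem lam_small : 16 * A.lam ≤ 1 / 2 ^ 15 := by
  have h1 := A.hm
  unfold lam
  have h : 0 < A.j * A.t := by omega
  have h2 : (1 : ℝ) ≤ (A.j * A.t : ℕ) := by exact_mod_cast h
  have h3 : (1 : ℝ) ≤ ((A.j * A.t : ℕ) : ℝ) ^ 4 := one_le_pow₀ h2
  rw [mul_one_div, div_le_div_iff₀ (by positivity) (by positivity)]
  nlinarith

theorem Lc_le : A.Lc ≤ (A.lam * (2 ^ (A.j * A.t) : ℕ)) ^ 2 := by
  have h1 := A.four_Lc_le
  rw [A.kap_eq] at h1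
  push_cast
  nlinarith

section data

variable {K : Type*} [Field K] [Fintype K] [Algebra (ZMod 2) K]
  {J : Type*} [AddCommGroup J] [Module (ZMod 2) J] [Fintype J]
  {G : Type*} [Group G] [Fintype G] {L : Type*} [Fintype L]

/-- The lazy letters, numbered. -/
def lets (letter : L → G) (e : Fin (2 * nl) ≃ L × Bool) (i : Fin (2 * nl)) : G := lz letter (e i)

theorem expP_lets (E : EData K J G L n) (hL : Fintype.card L = nl)
    (e : Fin (2 * nl) ≃ L × Bool) :
    ExpP (fun i => Equiv.mulLeft (lets E.letter e i)) ((2 * (nl : ℝ) * √(loss n nl)) ^ 2) := by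
  intro f hf
  have h1 := base_left E f hf
  rw [hL] at h1
  refine le_trans (le_of_eq ?_) h1
  refine sum_congr rfl fun g _ => ?_
  congr 1
  exact Equiv.sum_comp e fun p => f (lz E.letter p * g)

/-- The gap of the letters (one step of the walk). -/
theorem gap_lets (E : EData K J G L n) (hL : Fintype.card L = nl)
    (e : Fin (2 * nl) ≃ L × Bool) :
    H855.Gap (fun i => Equiv.mulLeft (lets E.letter e i)) √(loss n nl) ∧ √(loss n nl) < 1 := by
  have hnl : 0 < nl := by
    rw [← hL]
    exact Vale.Agent.P330.H143.L_pos E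
  have hne : Nonempty (Fin (2 * nl)) := ⟨⟨0, by omega⟩⟩
  have h1 := H972.gap_of_expP (base_lt n nl hnl).1 (expP_lets E hL e)
  have h2 : (0 : ℝ) < 2 * nl := by
    have : (0 : ℝ) < nl := by exact_mod_cast hnl
    linarith
  have h3 : 2 * (nl : ℝ) * √(loss n nl) / (Fintype.card (Fin (2 * nl)) : ℝ) = √(loss n nl) := by
    rw [Fintype.card_fin]
    push_cast
    field_simp
  rw [h3] at h1
  refine ⟨h1, ?_⟩
  have h4 := (base_lt n nl hnl).2
  by_contra h5
  push Not at h5
  nlinarith

/-- The labels: all the words of length `t` in `2 ^ j` letters. -/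
def lab (letter : L → G) (e : Fin (2 * nl) ≃ L × Bool) : Fin (2 ^ (A.j * A.t)) → G :=
  labels (lets letter e) A.j A.t

variable (E : EData K J G L n) (hL : Fintype.card L = nl) (e : Fin (2 * nl) ≃ L × Bool)

include hL in
theorem expP_left : ExpP (fun b => Equiv.mulLeft (A.lab E.letter e b)) A.Lc := by
  have hnl : 0 < nl := by
    rw [← hL]
    exact Vale.Agent.P330.H143.L_pos E
  exact expP_labels (lets E.letter e) A.hj (base_lt n nl hnl).1 (expP_lets E hL e) A.t

include hL in
theorem expP_left_inv : ExpP (fun b => (Equiv.mulLeft (A.lab E.letter e b)).symm) A.Lc :=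
  H972.expP_left_inv A.Lc_nonneg (A.expP_left E hL e)

include hL in
theorem expP_right : ExpP (fun b => Equiv.mulRight (A.lab E.letter e b)) A.Lc :=
  H972.expP_right A.Lc_nonneg (A.expP_left E hL e)

include hL in
theorem expP_right_inv : ExpP (fun b => (Equiv.mulRight (A.lab E.letter e b)).symm) A.Lc :=
  H972.expP_right_inv A.Lc_nonneg (A.expP_left E hL e)

/-- From `ExpP` to `SpecGap`. -/
theorem specGap_of {H : Type*} [Fintype H] {p : Fin (2 ^ (A.j * A.t)) → Equiv.Perm H}
    (h : ExpP p A.Lc) : SpecGap p A.lam := by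
  intro f hf
  refine (h f hf).trans (mul_le_mul_of_nonneg_right ?_ (sum_nonneg fun _ _ => sq_nonneg _))
  rw [Fintype.card_fin]
  exact A.Lc_le

include hL in
theorem specGap_right : SpecGap (fun b => Equiv.mulRight (A.lab E.letter e b)) A.lam :=
  A.specGap_of (A.expP_right E hL e)

include hL in
theorem specGap_left : SpecGap (fun b => Equiv.mulLeft (A.lab E.letter e b)) A.lam :=
  A.specGap_of (A.expP_left E hL e)

end data

end Abs

/-- **The absolute constants exist.** -/
theorem exists_abs (n nl : ℕ) (hnl : 0 < nl) : Nonempty (Abs n nl) := by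
  obtain ⟨j, t, h1, h2, h3, h4⟩ := exists_len (2 * (nl : ℝ) * √(loss n nl)) (2 * nl)
    (base_lt n nl hnl).1 (by
      have := (base_lt n nl hnl).2
      push_cast
      exact this) (1 / 2 ^ 77) (by positivity) 4 64
  obtain ⟨P, B, b0, c1, c2, c3, c4, c5, c6⟩ := exists_local.{0, 0} h3
  refine ⟨⟨j, t, h3, h1, h2, P, B, b0, c1, c2, c3, c4, c5, c6, ?_⟩⟩
  refine h4.trans (le_of_eq ?_)
  congr 1
  have h : 0 < j * t := by omega
  have h2 : (0 : ℝ) < (j * t : ℕ) := by exact_mod_cast h
  push_cast at h2 ⊢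
  field_simp
  norm_num

end Vale.Agent.P330.W
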