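import Mathlib

/-!
# Linear codes given by checks, and agreement testability of tensor products

`Wd P E` is the space of words with values in the `K`-space `E` which satisfy all the checks in
`P`.  `DistGe P d`: nonzero words have weight at least `d`.  `Smooth P c h N L`: after removal of
the local checks which touch a small set `X₀` the light words are supported in a set of size at most
`L * #X₀`.  `agree_of_smooth` is the agreement testability of a tensor product (after Dinur, Sudan
and Wigderson).
-/

namespace Vale.Agent.P330.W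

open Finset
open scoped BigOperators

section defs

variable {K : Type*} [Field K] {ι : Type*} [Fintype ι]

/-- The words over the `K`-space `E` which satisfy all the checks in `P`. -/
def Wd (P : Submodule K (ι → K)) (E : Type*) [AddCommGroup E] [Module K E] :
    Submodule K (ι → E) where
  carrier := {x | ∀ h ∈ P, ∑ i, h i • x i = 0}
  add_mem' := by
    intro x y hx hy h hh
    simp only [Pi.add_apply, smul_add, sum_add_distrib, hx h hh, hy h hh, add_zero]
  zero_mem' := by
    intro h _
    simp
  smul_mem' := by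
    intro c x hx h hh
    have : ∑ i, h i • (c • x) i = c • ∑ i, h i • x i := by
      rw [smul_sum]
      exact sum_congr rfl fun i _ => by rw [Pi.smul_apply, smul_comm]
    rw [this, hx h hh, smul_zero]

theorem mem_Wd {P : Submodule K (ι → K)} {E : Type*} [AddCommGroup E] [Module K E] {x : ι → E} :
    x ∈ Wd P E ↔ ∀ h ∈ P, ∑ i, h i • x i = 0 := Iff.rfl

open Classical in
/-- The weight of a word. -/
noncomputable def wt {E : Type*} [Zero E] (x : ι → E) : ℕ := (univ.filter fun i => x i ≠ 0).card

/-- Every nonzero word of the code with checks `P` has weight at least `d`. -/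
def DistGe (P : Submodule K (ι → K)) (d : ℕ) : Prop :=
  ∀ x ∈ Wd P K, x ≠ 0 → d ≤ wt x

theorem wt_le_of_supp {E F : Type*} [Zero E] [Zero F] {x : ι → E} {y : ι → F}
    (h : ∀ i, x i ≠ 0 → y i ≠ 0) : wt x ≤ wt y := by
  classical
  unfold wt
  refine card_le_card fun i hi => ?_
  simp only [mem_filter, mem_univ, true_and] at hi ⊢
  exact h i hi

theorem wt_le_card {E : Type*} [Zero E] {x : ι → E} {s : Finset ι}
    (h : ∀ i, x i ≠ 0 → i ∈ s) : wt x ≤ s.card := by
  classical
  unfold wt
  refine card_le_card fun i hi => ?_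
  simp only [mem_filter, mem_univ, true_and] at hi
  exact h i hi

theorem wt_zero {E : Type*} [Zero E] : wt (0 : ι → E) = 0 := by
  classical
  simp [wt]

theorem wt_pos {E : Type*} [Zero E] {x : ι → E} (h : x ≠ 0) : 0 < wt x := by
  classical
  obtain ⟨i, hi⟩ := Function.ne_iff.1 h
  exact card_pos.2 ⟨i, by simpa using hi⟩

variable {E : Type*} [AddCommGroup E] [Module K E]

/-- The image of a word under a linear map. -/
theorem map_mem_Wd {F : Type*} [AddCommGroup F] [Module K F] {P : Submodule K (ι → K)} {x : ι → E}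
    (hx : x ∈ Wd P E) (f : E →ₗ[K] F) : (fun i => f (x i)) ∈ Wd P F := by
  intro h hh
  have := congrArg f (hx h hh)
  simpa only [map_sum, map_smul, map_zero] using this

/-- The distance for words with values in a vector space. -/
theorem DistGe.le_wt {P : Submodule K (ι → K)} {d : ℕ} (hP : DistGe P d) {x : ι → E}
    (hx : x ∈ Wd P E) (h0 : x ≠ 0) : d ≤ wt x := by
  obtain ⟨i, hi⟩ := Function.ne_iff.1 h0
  obtain ⟨f, hf⟩ : ∃ f : Module.Dual K E, f (x i) ≠ 0 := by
    by_contra hcon
    push Not at hcon
    exact hi ((Module.forall_dual_apply_eq_zero_iff K (x i)).1 hcon)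
  refine (hP _ (map_mem_Wd hx f) ?_).trans (wt_le_of_supp fun j hj h => hj (by simp [h]))
  intro h
  exact hf (congrFun h i)

theorem DistGe.eq_zero {P : Submodule K (ι → K)} {d : ℕ} (hP : DistGe P d) {x : ι → E}
    (hx : x ∈ Wd P E) (h : wt x < d) : x = 0 := by
  by_contra h0
  exact absurd (hP.le_wt hx h0) (not_le.2 h)

theorem DistGe.mono {P : Submodule K (ι → K)} {d d' : ℕ} (hP : DistGe P d) (h : d' ≤ d) :
    DistGe P d' := fun x hx h0 => h.trans (hP x hx h0)

/-- The checks have arbitrary values on a small set. -/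
theorem DistGe.exists_check [DecidableEq ι] {P : Submodule K (ι → K)} {d : ℕ} (hP : DistGe P d)
    (Y : Finset ι) (hY : Y.card < d) (f : ι → K) : ∃ h ∈ P, ∀ j ∈ Y, h j = f j := by
  set r : P →ₗ[K] (Y → K) := (LinearMap.funLeft K K (Subtype.val : Y → ι)).comp P.subtype with hr
  have hsurj : LinearMap.range r = ⊤ := by
    by_contra hne
    obtain ⟨φ, hφ, hker⟩ := Submodule.exists_le_ker_of_lt_top _ (lt_top_iff_ne_top.2 hne)
    have hφ1 : ∀ u : Y → K, φ u = ∑ y : Y, u y * φ (Pi.single y 1) := by
      intro u
      conv_lhs => rw [← LinearMap.sum_single_apply (φ := fun _ : Y => K) u, map_sum]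
      refine sum_congr rfl fun y _ => ?_
      have : (Pi.single y (u y) : Y → K) = u y • Pi.single y (1 : K) := by
        ext z
        by_cases h : z = y
        · subst h; simp
        · simp [h]
      rw [this, map_smul, smul_eq_mul]
    set c : ι → K := fun i => if h : i ∈ Y then φ (Pi.single ⟨i, h⟩ 1) else 0 with hc
    have hcW : c ∈ Wd P K := by
      intro h hh
      have h1 : φ (r ⟨h, hh⟩) = 0 := by
        have : r ⟨h, hh⟩ ∈ LinearMap.ker φ := hker ⟨⟨h, hh⟩, rfl⟩
        simpa using this
      rw [hφ1] at h1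
      rw [← h1]
      have h2 : ∑ i, h i • c i = ∑ i ∈ Y, h i • c i := by
        symm
        refine sum_subset (subset_univ _) fun i _ hi => ?_
        simp [hc, hi]
      rw [h2, ← sum_coe_sort Y]
      refine sum_congr rfl fun y _ => ?_
      simp [hc, hr, LinearMap.funLeft]
    have hc0 : c ≠ 0 := by
      intro h0
      apply hφ
      ext y
      have := congrFun h0 y
      simpa [hc] using this
    have h3 := hP c hcW hc0
    have h4 : wt c ≤ Y.card := wt_le_card fun i hi => by
      by_contra h
      exact hi (by simp [hc, h])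
    omega
  obtain ⟨h, hh⟩ : (fun y : Y => f y) ∈ LinearMap.range r := by rw [hsurj]; trivial
  exact ⟨h, h.2, fun j hj => by simpa [hr, LinearMap.funLeft] using congrFun hh ⟨j, hj⟩⟩

end defs

section tensor

variable {K : Type*} [Field K] {α β : Type*} [Fintype α] [Fintype β]
  {E : Type*} [AddCommGroup E] [Module K E]

/-- Rows and columns which agree outside a small cross come from a tensor codeword. -/
theorem tensor_ext {PA : Submodule K (α → K)} {PB : Submodule K (β → K)} {dA dB : ℕ}
    (hA : DistGe PA dA) (hB : DistGe PB dB) {R M : α → β → E} (hR : ∀ i, R i ∈ Wd PB E)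
    (hM : ∀ j, (fun i => M i j) ∈ Wd PA E) (X : Finset α) (Y : Finset β) (hX : X.card < dA)
    (hY : Y.card < dB) (h : ∀ i ∉ X, ∀ j ∉ Y, R i j = M i j) :
    ∃ Z : α → β → E, (∀ i, Z i ∈ Wd PB E) ∧ (∀ j, (fun i => Z i j) ∈ Wd PA E) ∧
      (∀ i ∉ X, Z i = R i) ∧ (∀ j ∉ Y, ∀ i, Z i j = M i j) := by
  classical
  have hex : ∀ j : β, ∃ c ∈ PB, ∀ j' ∈ Y, c j' = if j' = j then 1 else 0 := fun j =>
    hB.exists_check Y hY _
  choose c hc hc1 using hex
  set Z : α → β → E := fun i j => if j ∈ Y then -∑ j' ∈ univ.filter (· ∉ Y), c j j' • M i j'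
    else M i j with hZ
  have hZc : ∀ j, (fun i => Z i j) ∈ Wd PA E := by
    intro j
    by_cases hj : j ∈ Y
    · have : (fun i => Z i j) = -∑ j' ∈ univ.filter (· ∉ Y), c j j' • (fun i => M i j') := by
        funext i
        simp [hZ, hj]
      rw [this]
      exact Submodule.neg_mem _ (Submodule.sum_mem _ fun j' _ => Submodule.smul_mem _ _ (hM j'))
    · have : (fun i => Z i j) = fun i => M i j := by
        funext i
        simp [hZ, hj]
      rw [this]
      exact hM j
  have hZr : ∀ i ∉ X, Z i = R i := by
    intro i hi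
    funext j
    by_cases hj : j ∈ Y
    · have h1 := hR i (c j) (hc j)
      have h2 : ∑ j', c j j' • R i j' = R i j + ∑ j' ∈ univ.filter (· ∉ Y), c j j' • M i j' := by
        rw [← sum_filter_add_sum_filter_not univ (· ∈ Y)]
        congr 1
        · rw [sum_eq_single j]
          · rw [hc1 j j hj]; simp
          · intro j' hj' hne
            rw [hc1 j j' (mem_filter.1 hj').2, if_neg hne, zero_smul]
          · intro h'
            exact absurd (mem_filter.2 ⟨mem_univ _, hj⟩) h'
        · refine sum_congr rfl fun j' hj' => ?_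
          rw [h i hi j' (mem_filter.1 hj').2]
      rw [h1] at h2
      simp only [hZ, hj, if_true]
      exact (eq_neg_of_add_eq_zero_left h2.symm).symm
    · simp only [hZ, hj, if_false]
      exact (h i hi j hj).symm
  refine ⟨Z, ?_, hZc, hZr, fun j hj i => by simp [hZ, hj]⟩
  intro i f hf
  set u : α → E := fun i => ∑ j, f j • Z i j with hu
  have huW : u ∈ Wd PA E := by
    have : u = ∑ j, f j • (fun i => Z i j) := by
      funext i
      simp [hu]
    rw [this]
    exact Submodule.sum_mem _ fun j _ => Submodule.smul_mem _ _ (hZc j)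
  have hu0 : u = 0 := by
    refine hA.eq_zero huW (lt_of_le_of_lt (wt_le_card fun i hi => ?_) hX)
    by_contra hiX
    apply hi
    simp only [hu, hZr i hiX]
    exact hR i f hf
  exact congrFun hu0 i

end tensor

section agree

variable {K : Type*} [Field K] {α β : Type*} [Fintype α] [Fintype β]

/-- Smoothness of a code: there is a set of local checks (of weight at most `c`) such that for every
set `X₀` of at most `N` coordinates there is a set `X` of at most `L * #X₀` coordinates which
contains the support of every word of weight less than `h` which satisfies all the local checks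
which vanish on `X₀`. -/
def Smooth.{u} {K : Type*} [Field K] {α : Type*} [Fintype α] (P : Submodule K (α → K))
    (c h N L : ℕ) : Prop :=
  ∃ Λ : Set (α → K), Λ ⊆ P ∧ (∀ f ∈ Λ, wt f ≤ c) ∧ ∀ X₀ : Finset α, X₀.card ≤ N →
    ∃ X : Finset α, X.card ≤ L * X₀.card ∧ ∀ (E : Type u) [AddCommGroup E] [Module K E]
      (e : α → E), wt e < h → (∀ f ∈ Λ, (∀ i ∈ X₀, f i = 0) → ∑ i, f i • e i = 0) →
      ∀ i, e i ≠ 0 → i ∈ X

open Classical in
/-- **Agreement testability**, for a smooth column code. -/
theorem agree_of_smooth.{u} {E : Type u} [AddCommGroup E] [Module K E]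
    {PA : Submodule K (α → K)} {PB : Submodule K (β → K)}
    {c h N L dA dB : ℕ} (hA : DistGe PA dA) (hB : DistGe PB dB) (hS : Smooth.{u} PA c h N L)
    (hc : c * h ≤ dB) {R M : α → β → E} (hR : ∀ i, R i ∈ Wd PB E)
    (hM : ∀ j, (fun i => M i j) ∈ Wd PA E)
    (Nr Nc : ℕ) (hNr : ∀ s : Finset α, (∀ i ∈ s, h ≤ wt (fun j => R i j - M i j)) → s.card ≤ Nr)
    (hNc : ∀ s : Finset β, (∀ j ∈ s, h ≤ wt (fun i => R i j - M i j)) → s.card ≤ Nc)
    (h1 : Nr ≤ N) (h2 : L * Nr < dA) (h3 : Nc < dB) :
    ∃ Z : α → β → E, (∀ i, Z i ∈ Wd PB E) ∧ (∀ j, (fun i => Z i j) ∈ Wd PA E) ∧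
      (univ.filter fun i => R i ≠ Z i).card ≤ L * Nr ∧
      (univ.filter fun j => ∃ i, M i j ≠ Z i j).card ≤ Nc := by
  obtain ⟨Λ, hΛ, hΛc, hS⟩ := hS
  set Hr : Finset α := univ.filter fun i => h ≤ wt (fun j => R i j - M i j) with hHr
  set Hc : Finset β := univ.filter fun j => h ≤ wt (fun i => R i j - M i j) with hHc
  have hHr1 : Hr.card ≤ Nr := hNr Hr fun i hi => (mem_filter.1 hi).2
  have hHc1 : Hc.card ≤ Nc := hNc Hc fun i hi => (mem_filter.1 hi).2
  obtain ⟨X, hXc, hX⟩ := hS Hr (hHr1.trans h1)
  -- local checks away from the heavy rows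
  have key : ∀ f ∈ Λ, (∀ i ∈ Hr, f i = 0) → ∀ j, ∑ i, f i • (R i j - M i j) = 0 := by
    intro f hf hf0
    set u : β → E := fun j => ∑ i, f i • (R i j - M i j) with hu
    have hu1 : u = ∑ i, f i • R i := by
      funext j
      have h5 := hM j f (hΛ hf)
      simp only [hu, smul_sub, sum_sub_distrib]
      simp only at h5
      rw [h5, sub_zero]
      simp
    have huW : u ∈ Wd PB E := by
      rw [hu1]
      exact Submodule.sum_mem _ fun i _ => Submodule.smul_mem _ _ (hR i)
    have hw : wt u < dB := by
      have h6 : wt u ≤ ((univ.filter fun i => f i ≠ 0).biUnion fun i =>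
          univ.filter fun j => R i j - M i j ≠ 0).card := by
        refine wt_le_card fun j hj => ?_
        by_contra hcon
        apply hj
        refine sum_eq_zero fun i _ => ?_
        by_cases hfi : f i = 0
        · rw [hfi, zero_smul]
        · by_cases hE : R i j - M i j = 0
          · rw [hE, smul_zero]
          · exact absurd (mem_biUnion.2 ⟨i, by simpa using hfi, by simpa using hE⟩) hcon
      have h7 : ((univ.filter fun i => f i ≠ 0).biUnion fun i =>
          univ.filter fun j => R i j - M i j ≠ 0).card ≤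
          ∑ i ∈ univ.filter fun i => f i ≠ 0, wt (fun j => R i j - M i j) := card_biUnion_le
      have h8 : ∀ i ∈ univ.filter fun i => f i ≠ 0, wt (fun j => R i j - M i j) ≤ h - 1 ∧ 1 ≤ h := by
        intro i hi
        have hi' : i ∉ Hr := fun hh => (mem_filter.1 hi).2 (hf0 i hh)
        have : ¬ h ≤ wt (fun j => R i j - M i j) := fun hh => hi' (by simpa [hHr] using hh)
        omega
      rcases (univ.filter fun i => f i ≠ 0).eq_empty_or_nonempty with h9 | h9
      · rw [h9] at h7
        simp only [biUnion_empty, card_empty, sum_empty, le_refl] at h7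
        rw [h9] at h6
        simp at h6
        omega
      · obtain ⟨i0, hi0⟩ := h9
        have h10 : 1 ≤ h := (h8 i0 hi0).2
        have h11 : ∑ i ∈ univ.filter fun i => f i ≠ 0, wt (fun j => R i j - M i j) ≤
            (univ.filter fun i => f i ≠ 0).card * (h - 1) := by
          rw [← smul_eq_mul, ← sum_const]
          exact sum_le_sum fun i hi => (h8 i hi).1
        have h12 : (univ.filter fun i => f i ≠ 0).card ≤ c := hΛc f hf
        have h13 : (univ.filter fun i => f i ≠ 0).card * (h - 1) <
            (univ.filter fun i => f i ≠ 0).card * h :=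
          Nat.mul_lt_mul_of_pos_left (by omega) (card_pos.2 ⟨i0, hi0⟩)
        have h14 : (univ.filter fun i => f i ≠ 0).card * h ≤ c * h := Nat.mul_le_mul_right _ h12
        omega
    have := hB.eq_zero huW hw
    intro j
    exact congrFun this j
  have hcross : ∀ i ∉ X, ∀ j ∉ Hc, R i j = M i j := by
    intro i hi j hj
    by_contra hne
    apply hi
    refine hX E (fun i => R i j - M i j) ?_ (fun f hf hf0 => key f hf hf0 j) i (sub_ne_zero.2 hne)
    by_contra hh
    exact hj (by simpa [hHc] using hh)
  obtain ⟨Z, hZ1, hZ2, hZ3, hZ4⟩ := tensor_ext hA hB hR hM X Hc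
    (lt_of_le_of_lt (hXc.trans (Nat.mul_le_mul_left _ hHr1)) h2) (by omega) hcross
  refine ⟨Z, hZ1, hZ2, ?_, ?_⟩
  · refine (card_le_card (t := X) fun i hi => ?_).trans
      (hXc.trans (Nat.mul_le_mul_left _ hHr1))
    by_contra h'
    exact (mem_filter.1 hi).2 (hZ3 i h').symm
  · refine (card_le_card (t := Hc) fun j hj => ?_).trans hHc1
    by_contra h'
    obtain ⟨i, hi⟩ := (mem_filter.1 hj).2
    exact hi (hZ4 j h' i).symm

end agree

end Vale.Agent.P330.W
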