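import Vale.Agent.P330.W.H170.Tanner
import Vale.Agent.P330.Q.E

/-!
# Cayley expanders on elementary abelian 2-groups

`bias`: the family `(x, y) ↦ (φ (x ^ i * y))_i` is small-biased (Alon, Goldreich, Håstad, Peralta).
-/

set_option linter.unusedSectionVars false

namespace Vale.Agent.P330.W

open Finset Vale.Agent.P318.S Vale.Agent.P330.Q
open scoped BigOperators

section bias

variable {K : Type*} [Field K] [Fintype K] [DecidableEq K]

/-- The small-bias family. -/
def gen (φ : K →+ ZMod 2) (m : ℕ) (p : K × K) : Fin m → ZMod 2 := fun i => φ (p.1 ^ (i : ℕ) * p.2)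

theorem hom_eq_sum {m : ℕ} (f : (Fin m → ZMod 2) →+ ZMod 2) (v : Fin m → ZMod 2) :
    f v = ∑ i, v i * f (Pi.single i 1) := by
  have hv : v = ∑ i, Pi.single i (v i) := (Finset.univ_sum_single v).symm
  conv_lhs => rw [hv, map_sum]
  refine sum_congr rfl fun i _ => ?_
  rcases zmod2_cases (v i) with h | h
  · rw [h]; simp
  · rw [h]; simp

theorem charBd_gen {φ : K →+ ZMod 2} (hφ : φ ≠ 0) (m : ℕ) :
    CharBd (gen φ m) ((m : ℝ) / Fintype.card K) := by
  classical
  intro f hf
  have hK : (0 : ℝ) < Fintype.card K := by exact_mod_cast Fintype.card_pos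
  -- the coefficients
  set a : Fin m → K := fun i => if f (Pi.single i 1) = 0 then 0 else 1 with ha
  set q : Polynomial K := ∑ i, Polynomial.C (a i) * Polynomial.X ^ (i : ℕ) with hq
  have hcoef : ∀ i : Fin m, q.coeff i = a i := by
    intro i
    rw [hq, Polynomial.finsetSum_coeff, sum_eq_single i]
    · simp
    · intro j _ hj
      rw [Polynomial.coeff_C_mul, Polynomial.coeff_X_pow, if_neg, mul_zero]
      intro h
      exact hj (Fin.ext h).symm
    · simp
  have hq0 : q ≠ 0 := by
    intro h0
    apply hf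
    refine DFunLike.ext _ _ fun v => ?_
    rw [hom_eq_sum f v]
    refine sum_eq_zero fun i _ => ?_
    have h1 := hcoef i
    rw [h0, Polynomial.coeff_zero] at h1
    have h2 : f (Pi.single i 1) = 0 := by
      by_contra h3
      rw [ha] at h1
      simp [h3] at h1
    rw [h2, mul_zero]
  have hdeg : q.roots.toFinset.card ≤ m := by
    refine (Multiset.toFinset_card_le _).trans ((Polynomial.card_roots' q).trans ?_)
    refine Polynomial.natDegree_sum_le_of_forall_le _ _ fun i _ => ?_
    refine (Polynomial.natDegree_C_mul_X_pow_le _ _).trans i.2.le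
  have hval : ∀ x y : K, f (gen φ m (x, y)) = φ (q.eval x * y) := by
    intro x y
    rw [hom_eq_sum f, hq, Polynomial.eval_finsetSum, sum_mul, map_sum]
    refine sum_congr rfl fun i _ => ?_
    simp only [gen, Polynomial.eval_mul, Polynomial.eval_C, Polynomial.eval_pow,
      Polynomial.eval_X]
    rcases zmod2_cases (f (Pi.single i 1)) with h | h
    · simp [ha, h]
    · simp [ha, h]
  have hin : ∀ x : K, ∑ y : K, sgn (f (gen φ m (x, y))) =
      if q.eval x = 0 then (Fintype.card K : ℝ) else 0 := by
    intro x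
    split_ifs with hx
    · simp [hval, hx]
    · have h1 : ∑ y : K, sgn (f (gen φ m (x, y))) = ∑ y : K, sgn (φ y) := by
        simp only [hval]
        exact (Equiv.sum_comp (Equiv.mulLeft₀ (q.eval x) hx) fun y => sgn (φ y))
      rw [h1]
      exact sum_sgn_char hφ
  have hsum : ∑ p : K × K, sgn (f (gen φ m p)) =
      (univ.filter fun x : K => q.eval x = 0).card * (Fintype.card K : ℝ) := by
    rw [Fintype.sum_prod_type]
    simp only [hin]
    rw [← sum_filter, sum_const, nsmul_eq_mul]
  have hcard : (univ.filter fun x : K => q.eval x = 0).card ≤ m := by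
    refine (card_le_card fun x hx => ?_).trans hdeg
    simp only [mem_filter, mem_univ, true_and] at hx
    rw [Multiset.mem_toFinset, Polynomial.mem_roots hq0]
    exact hx
  have hcard' : ((univ.filter fun x : K => q.eval x = 0).card : ℝ) ≤ m := by exact_mod_cast hcard
  rw [Fintype.expect_eq_sum_div_card, hsum, Fintype.card_prod, Nat.cast_mul,
    mul_div_mul_right _ _ hK.ne', abs_of_nonneg (by positivity)]
  gcongr

end bias

section exp

variable {V S : Type*} [AddCommGroup V] [Fintype V] [DecidableEq V] [Fintype S] [DecidableEq S]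

/-- Small bias gives expansion. -/
theorem exp_of_charBd [Nonempty S] (h2 : ∀ v : V, v + v = 0) {g : S → V} {lam : ℝ}
    (h0 : 0 ≤ lam) (hb : CharBd g lam) : Exp g lam := by
  intro X Y
  have h1 := (abs_le.1 (mix2 h2 g hb (fun v => if v ∈ X then 1 else 0)
    (fun v => if v ∈ Y then 1 else 0))).2
  have hV' : (0 : ℝ) < Fintype.card V := by exact_mod_cast Fintype.card_pos_iff.2 ⟨(0 : V)⟩
  have hS' : (0 : ℝ) < Fintype.card S := by exact_mod_cast Fintype.card_pos
  have e1 : ∀ Z : Finset V, 𝔼 v : V, (if v ∈ Z then (1 : ℝ) else 0) =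
      Z.card / Fintype.card V := by
    intro Z
    rw [Fintype.expect_eq_sum_div_card]
    simp
  have e2 : ∀ Z : Finset V, 𝔼 v : V, (if v ∈ Z then (1 : ℝ) else 0) ^ 2 =
      Z.card / Fintype.card V := by
    intro Z
    rw [← e1 Z]
    refine expect_congr rfl fun v _ => ?_
    split_ifs <;> simp
  have e3 : 𝔼 ω : S, 𝔼 y : V, (if y ∈ X then (1 : ℝ) else 0) * (if y + g ω ∈ Y then 1 else 0) =
      edg g X Y / (Fintype.card V * Fintype.card S) := by
    rw [Fintype.expect_eq_sum_div_card]
    simp only [Fintype.expect_eq_sum_div_card]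
    rw [← sum_div, div_div]
    congr 1
    unfold edg
    rw [card_filter, Fintype.sum_prod_type, sum_comm]
    push_cast
    refine sum_congr rfl fun v _ => sum_congr rfl fun s _ => ?_
    by_cases hx : v ∈ X <;> by_cases hy : v + g s ∈ Y <;> simp [hx, hy]
  rw [e1, e1, e2, e2, e3] at h1
  set n : ℝ := (Fintype.card V : ℝ) with hn
  set D : ℝ := (Fintype.card S : ℝ) with hD
  set x : ℝ := (X.card : ℝ) with hx
  set y : ℝ := (Y.card : ℝ) with hy
  have e4 : (edg g X Y : ℝ) / (n * D) ≤ x / n * (y / n) + lam / 2 * (x / n + y / n) := by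
    have k1 : 0 ≤ (x / n) ^ 2 := sq_nonneg _
    have k2 : 0 ≤ (y / n) ^ 2 := sq_nonneg _
    have : lam / 2 * (x / n - (x / n) ^ 2 + (y / n - (y / n) ^ 2)) ≤
        lam / 2 * (x / n + y / n) :=
      mul_le_mul_of_nonneg_left (by linarith) (by linarith)
    linarith
  rw [div_le_iff₀ (by positivity)] at e4
  refine e4.trans (le_of_eq ?_)
  field_simp

end exp

end Vale.Agent.P330.W
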