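import Vale.Agent.P330.W.H170.Code

/-!
# A binary code of rate `7/8` and relative distance more than `1/128` (by counting)
-/

namespace Vale.Agent.P330.W

open Finset
open scoped BigOperators

section inner

variable {S : Type*} [Fintype S] [DecidableEq S]

theorem z2_cases (a : ZMod 2) : a = 0 ∨ a = 1 := by
  revert a
  decide

/-- Half of the checks vanish on a nonzero word. -/
theorem card_orth (x : S → ZMod 2) (hx : x ≠ 0) :
    2 * (univ.filter fun h : S → ZMod 2 => ∑ s, h s * x s = 0).card = 2 ^ Fintype.card S := by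
  obtain ⟨s0, hs0⟩ := Function.ne_iff.1 hx
  have hs1 : x s0 = 1 := (z2_cases (x s0)).resolve_left hs0
  have h1 : (univ.filter fun h : S → ZMod 2 => ∑ s, h s * x s = 0).card =
      (univ.filter fun h : S → ZMod 2 => ¬ ∑ s, h s * x s = 0).card := by
    have hsum : ∀ h : S → ZMod 2, ∑ s, (h + Pi.single s0 1 : S → ZMod 2) s * x s =
        (∑ s, h s * x s) + 1 := by
      intro h
      simp only [Pi.add_apply, add_mul, sum_add_distrib]
      congr 1
      rw [sum_eq_single s0]
      · simp [hs1]
      · intro s _ hs
        simp [hs]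
      · simp
    have h11 : ∀ h : S → ZMod 2, h + Pi.single s0 1 + Pi.single s0 1 = h := by
      intro h
      rw [add_assoc]
      have : (Pi.single s0 1 + Pi.single s0 1 : S → ZMod 2) = 0 := by
        rw [← Pi.single_add]
        have : (1 + 1 : ZMod 2) = 0 := by decide
        rw [this, Pi.single_zero]
      rw [this, add_zero]
    refine card_bij' (fun h _ => h + Pi.single s0 1) (fun h _ => h + Pi.single s0 1) ?_ ?_ ?_ ?_
    · intro h hh
      simp only [mem_filter, mem_univ, true_and] at hh ⊢
      rw [hsum, hh]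
      decide
    · intro h hh
      simp only [mem_filter, mem_univ, true_and] at hh ⊢
      rw [hsum, (z2_cases _).resolve_left hh]
      decide
    · intro h _
      exact h11 h
    · intro h _
      exact h11 h
  have h2 := card_filter_add_card_filter_not (s := (univ : Finset (S → ZMod 2)))
    (fun h => ∑ s, h s * x s = 0)
  rw [card_univ, Fintype.card_fun, ZMod.card] at h2
  omega

/-- The number of light words. -/
theorem card_light (k : ℕ) (hS : Fintype.card S = 128 * k) (hk : 1 ≤ k) :
    (univ.filter fun x : S → ZMod 2 => wt x ≤ k).card < 2 ^ (16 * k) := by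
  classical
  have h1 : ∑ x : S → ZMod 2, ∏ s, (if x s = 0 then 16 else 1 : ℕ) = 17 ^ (128 * k) := by
    have := Finset.prod_univ_sum (fun _ : S => (univ : Finset (ZMod 2)))
      (fun _ a => (if a = 0 then 16 else 1 : ℕ))
    rw [Fintype.piFinset_univ] at this
    rw [← this, ← hS]
    have e : ∑ a : ZMod 2, (if a = 0 then 16 else 1 : ℕ) = 17 := by decide
    rw [e, prod_const, card_univ]
  have h2 : ∀ x : S → ZMod 2, wt x ≤ k → 16 ^ (127 * k) ≤ ∏ s, (if x s = 0 then 16 else 1 : ℕ) := by
    intro x hx
    rw [prod_ite, prod_const, prod_const_one, mul_one]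
    refine Nat.pow_le_pow_right (by norm_num) ?_
    have h3 := card_filter_add_card_filter_not (s := (univ : Finset S)) (fun s => x s = 0)
    rw [card_univ, hS] at h3
    have h4 : (univ.filter fun s => ¬ x s = 0).card ≤ k := by
      have : wt x = (univ.filter fun s => ¬ x s = 0).card := by
        unfold wt
        congr
      rwa [this] at hx
    omega
  have h3 : (univ.filter fun x : S → ZMod 2 => wt x ≤ k).card * 16 ^ (127 * k) ≤
      17 ^ (128 * k) := by
    rw [← h1, ← smul_eq_mul, ← sum_const]
    refine (sum_le_sum fun x hx => h2 x (mem_filter.1 hx).2).trans ?_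
    exact sum_le_sum_of_subset (filter_subset _ _)
  have h4 : 17 ^ (128 * k) < 2 ^ (16 * k) * 16 ^ (127 * k) := by
    rw [pow_mul, pow_mul, pow_mul, ← mul_pow]
    exact Nat.pow_lt_pow_left (by norm_num) (by omega)
  by_contra hcon
  push Not at hcon
  have h5 := Nat.mul_le_mul_right (16 ^ (127 * k)) hcon
  omega

/-- **The inner code.** -/
theorem exists_inner (k : ℕ) (hS : Fintype.card S = 128 * k) (hk : 1 ≤ k) :
    ∃ P : Submodule (ZMod 2) (S → ZMod 2), Module.finrank (ZMod 2) P ≤ 16 * k ∧
      DistGe P (k + 1) := by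
  classical
  set L : Finset (S → ZMod 2) := univ.filter fun x => wt x ≤ k ∧ x ≠ 0 with hL
  have hLc : L.card < 2 ^ (16 * k) :=
    lt_of_le_of_lt (card_le_card fun x hx => by
      simp only [hL, mem_filter, mem_univ, true_and] at hx ⊢
      exact hx.1) (card_light k hS hk)
  let O : (S → ZMod 2) → Finset (Fin (16 * k) → S → ZMod 2) := fun x =>
    Fintype.piFinset fun _ => univ.filter fun h : S → ZMod 2 => ∑ s, h s * x s = 0
  have hO : ∀ x ∈ L, (O x).card * 2 ^ (16 * k) = (2 ^ Fintype.card S) ^ (16 * k) := by
    intro x hx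
    have hx0 : x ≠ 0 := (mem_filter.1 hx).2.2
    simp only [O, Fintype.card_piFinset, prod_const, card_univ, Fintype.card_fin]
    rw [← mul_pow, mul_comm, card_orth x hx0]
  have hU : (L.biUnion O).card < (2 ^ Fintype.card S) ^ (16 * k) := by
    have h1 : (L.biUnion O).card * 2 ^ (16 * k) ≤
        L.card * (2 ^ Fintype.card S) ^ (16 * k) := by
      refine (Nat.mul_le_mul_right _ card_biUnion_le).trans ?_
      rw [sum_mul, sum_congr rfl hO, sum_const, smul_eq_mul]
    by_contra hcon
    push Not at hcon
    have h2 := Nat.mul_le_mul_right (2 ^ (16 * k)) hcon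
    have h3 : L.card * (2 ^ Fintype.card S) ^ (16 * k) <
        2 ^ (16 * k) * (2 ^ Fintype.card S) ^ (16 * k) :=
      Nat.mul_lt_mul_of_pos_right hLc (by positivity)
    rw [mul_comm (2 ^ (16 * k))] at h3
    omega
  obtain ⟨H, hH⟩ : ∃ H : Fin (16 * k) → S → ZMod 2, H ∉ L.biUnion O := by
    by_contra hcon
    push Not at hcon
    have h1 : (L.biUnion O) = univ := by
      ext H
      simpa using hcon H
    rw [h1, card_univ, Fintype.card_fun, Fintype.card_fun, ZMod.card, Fintype.card_fin] at hU
    exact lt_irrefl _ hU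
  refine ⟨Submodule.span (ZMod 2) (Set.range H), ?_, ?_⟩
  · refine (finrank_range_le_card H).trans ?_
    simp
  · intro x hx hx0
    by_contra hcon
    apply hH
    rw [mem_biUnion]
    refine ⟨x, ?_, ?_⟩
    · simp only [hL, mem_filter, mem_univ, true_and]
      exact ⟨by omega, hx0⟩
    · simp only [O, Fintype.mem_piFinset, mem_filter, mem_univ, true_and]
      intro i
      exact hx (H i) (Submodule.subset_span ⟨i, rfl⟩)

end inner

end Vale.Agent.P330.W
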