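import Vale.Agent.P330.W.H170.Inner
import Vale.Agent.P330.W.H170.Bias

/-!
# The local code: rate at least `3/4`, constant relative distance, agreement testable

`exists_loc`: for every `m ≥ 64` there is a binary code of length `2 ^ m` given by at most
`2 ^ m / 4` checks, of distance at least `2 ^ (m - 15)`, which is agreement testable (for words with
values in any `ZMod 2`-space) with constant `1 / (2 ^ 77 * m ^ 4)`.
-/

set_option linter.unusedSectionVars false

namespace Vale.Agent.P330.W

open Finset Vale.Agent.P318.S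
open scoped BigOperators

/-- Agreement testability with constant `1 / T` (times the length). -/
def Agree.{u} {α β : Type*} [Fintype α] [Fintype β] {K : Type*} [Field K]
    (PA : Submodule K (α → K)) (PB : Submodule K (β → K)) (n T : ℕ) : Prop :=
  ∀ (E : Type u) [AddCommGroup E] [Module K E] (R M : α → β → E), (∀ i, R i ∈ Wd PB E) →
    (∀ j, (fun i => M i j) ∈ Wd PA E) → ∃ Z : α → β → E, (∀ i, Z i ∈ Wd PB E) ∧
      (∀ j, (fun i => Z i j) ∈ Wd PA E) ∧
      (wt (fun i => R i - Z i) + wt (fun j => (fun i => M i j) - fun i => Z i j)) * n ≤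
        T * ∑ i, wt (R i - M i)

theorem wt_eq_card {ι E : Type*} [Fintype ι] [Zero E] (x : ι → E)
    [DecidablePred fun i => x i ≠ 0] : wt x = (univ.filter fun i => x i ≠ 0).card := by
  unfold wt
  congr

theorem sum_wt_comm {α β E : Type*} [Fintype α] [Fintype β] [Zero E] (x : α → β → E) :
    ∑ i, wt (x i) = ∑ j, wt fun i => x i j := by
  classical
  unfold wt
  simp only [card_filter]
  exact sum_comm

/-- The trivial bound. -/
theorem wt_le_univ {ι E : Type*} [Fintype ι] [Zero E] (x : ι → E) : wt x ≤ Fintype.card ι := by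
  refine (wt_le_card (s := univ) fun i _ => mem_univ i).trans ?_
  rw [card_univ]

section numeric

theorem pow_big {m : ℕ} (hm : 64 ≤ m) : 2 ^ 41 * m ^ 2 < 2 ^ m := by
  induction m, hm using Nat.le_induction with
  | base => norm_num
  | succ m hm ih =>
    rw [pow_succ 2 m]
    have : (m + 1) ^ 2 ≤ 2 * m ^ 2 := by nlinarith
    have h2 : 2 ^ 41 * (m + 1) ^ 2 ≤ 2 * (2 ^ 41 * m ^ 2) := by
      calc 2 ^ 41 * (m + 1) ^ 2 ≤ 2 ^ 41 * (2 * m ^ 2) := Nat.mul_le_mul_left _ this
        _ = _ := by ring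
    omega

theorem exists_k {m : ℕ} (hm : 64 ≤ m) :
    ∃ k m', m = m' + 2 * k ∧ 17 ≤ m' ∧ 10 ≤ k ∧ 1024 * m ≤ 2 ^ k ∧ 2 ^ k ≤ 2048 * m := by
  have hex : ∃ k, 1024 * m ≤ 2 ^ k := ⟨1024 * m, (Nat.lt_two_pow_self).le⟩
  classical
  set k := Nat.find hex with hk
  have h1 : 1024 * m ≤ 2 ^ k := Nat.find_spec hex
  have hk10 : 10 ≤ k := by
    by_contra h
    have : 2 ^ k ≤ 2 ^ 9 := Nat.pow_le_pow_right (by norm_num) (by omega)
    omega
  have h2 : 2 ^ k ≤ 2048 * m := by
    have h3 : ¬ 1024 * m ≤ 2 ^ (k - 1) := Nat.find_min hex (by omega)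
    have h4 : 2 ^ k = 2 ^ (k - 1) * 2 := by
      rw [← pow_succ]
      congr 1
      omega
    omega
  have h5 : 2 * k + 20 ≤ m := by
    by_contra hcon
    have h6 : 2 ^ m ≤ 2 ^ (2 * k + 19) := Nat.pow_le_pow_right (by norm_num) (by omega)
    have h7 : 2 ^ (2 * k + 19) = (2 ^ k) ^ 2 * 2 ^ 19 := by rw [pow_add, ← pow_mul, mul_comm k 2]
    have h8 : (2 ^ k) ^ 2 ≤ (2048 * m) ^ 2 := Nat.pow_le_pow_left h2 2
    have h9 := pow_big hm
    have h10 : (2048 * m) ^ 2 * 2 ^ 19 = 2 ^ 41 * m ^ 2 := by ring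
    have h11 := Nat.mul_le_mul_right (2 ^ 19) h8
    omega
  exact ⟨k, m - 2 * k, by omega, by omega, hk10, h1, h2⟩

end numeric

section reindex

variable {K : Type*} [Field K] {α β : Type*} [Fintype α] [Fintype β]

/-- Change of the names of the coordinates. -/
def reix (e : α ≃ β) (P : Submodule K (β → K)) : Submodule K (α → K) :=
  P.map (LinearMap.funLeft K K e)

theorem mem_Wd_reix (e : α ≃ β) (P : Submodule K (β → K)) {E : Type*} [AddCommGroup E]
    [Module K E] {x : α → E} : x ∈ Wd (reix e P) E ↔ (fun j => x (e.symm j)) ∈ Wd P E := by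
  constructor
  · intro hx h hh
    have h1 := hx _ (Submodule.mem_map_of_mem (f := LinearMap.funLeft K K e) hh)
    rw [← h1]
    exact (Equiv.sum_comp e.symm _).symm.trans
      (sum_congr rfl fun j _ => by simp [LinearMap.funLeft]) |>.symm
  · rintro hx _ ⟨h, hh, rfl⟩
    rw [← hx h hh]
    exact (Equiv.sum_comp e.symm _).symm.trans
      (sum_congr rfl fun j _ => by simp [LinearMap.funLeft])

theorem finrank_reix_le [DecidableEq β] (e : α ≃ β) (P : Submodule K (β → K)) :
    Module.finrank K (reix e P) ≤ Module.finrank K P := Submodule.finrank_map_le _ _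

theorem wt_reix (e : α ≃ β) {E : Type*} [Zero E] (x : α → E) :
    wt (fun j => x (e.symm j)) = wt x := by
  classical
  unfold wt
  simp only [card_filter]
  exact Equiv.sum_comp e.symm fun i => if x i ≠ 0 then 1 else 0

theorem DistGe.reix (e : α ≃ β) {P : Submodule K (β → K)} {d : ℕ} (h : DistGe P d) :
    DistGe (reix e P) d := by
  intro x hx h0
  rw [← wt_reix e x]
  refine h _ ((mem_Wd_reix e P).1 hx) fun h1 => h0 ?_
  funext i
  have := congrFun h1 (e i)
  simpa using this

theorem Agree.reix.{u} {γ δ : Type*} [Fintype γ] [Fintype δ] (e : α ≃ γ) (f : β ≃ δ)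
    {PA : Submodule K (γ → K)} {PB : Submodule K (δ → K)} {n T : ℕ} (h : Agree.{u} PA PB n T) :
    Agree.{u} (Vale.Agent.P330.W.reix e PA) (Vale.Agent.P330.W.reix f PB) n T := by
  intro E _ _ R M hR hM
  obtain ⟨Z, hZ1, hZ2, hZ3⟩ := h E (fun i j => R (e.symm i) (f.symm j))
    (fun i j => M (e.symm i) (f.symm j)) (fun i => (mem_Wd_reix f PB).1 (hR _))
    (fun j => (mem_Wd_reix e PA).1 (hM _))
  refine ⟨fun i j => Z (e i) (f j), ?_, ?_, ?_⟩
  · intro i
    rw [mem_Wd_reix]
    simpa using hZ1 (e i)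
  · intro j
    rw [mem_Wd_reix]
    simpa using hZ2 (f j)
  · have h1 : wt (fun i => R i - fun j => Z (e i) (f j)) =
        wt (fun i => (fun j => R (e.symm i) (f.symm j)) - Z i) := by
      rw [← wt_reix e]
      refine le_antisymm (wt_le_of_supp fun i hi h' => hi ?_)
        (wt_le_of_supp fun i hi h' => hi ?_)
      · funext j
        have := congrFun h' (f j)
        simpa using this
      · funext j
        have := congrFun h' (f.symm j)
        simpa using this
    have h2 : wt (fun j => (fun i => M i j) - fun i => Z (e i) (f j)) =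
        wt (fun j => (fun i => M (e.symm i) (f.symm j)) - fun i => Z i j) := by
      rw [← wt_reix f]
      refine le_antisymm (wt_le_of_supp fun j hj h' => hj ?_)
        (wt_le_of_supp fun j hj h' => hj ?_)
      · funext i
        have := congrFun h' (e i)
        simpa using this
      · funext i
        have := congrFun h' (e.symm i)
        simpa using this
    have h3 : ∑ i, wt (R i - M i) = ∑ i, wt ((fun j => R (e.symm i) (f.symm j)) -
        fun j => M (e.symm i) (f.symm j)) := by
      rw [← Equiv.sum_comp e.symm]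
      refine sum_congr rfl fun i _ => ?_
      exact (wt_reix f (R (e.symm i) - M (e.symm i))).symm
    rw [h1, h2, h3]
    exact hZ3

end reindex

/-- **The local code.** -/
theorem exists_loc.{u} {m : ℕ} (hm : 64 ≤ m) : ∃ P : Submodule (ZMod 2) (Fin (2 ^ m) → ZMod 2),
    4 * Module.finrank (ZMod 2) P ≤ 2 ^ m ∧ DistGe P (2 ^ (m - 15)) ∧
      Agree.{u} P P (2 ^ m) (2 ^ 77 * m ^ 4) := by
  classical
  obtain ⟨k, m', hmk, hm', hk10, hk1, hk2⟩ := exists_k hm
  -- the expander
  have : Fact (Nat.Prime 2) := ⟨Nat.prime_two⟩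
  let K := GaloisField 2 k
  have : Fintype K := Fintype.ofFinite K
  have : DecidableEq K := Classical.decEq K
  have hKc : Fintype.card K = 2 ^ k := by
    rw [← Nat.card_eq_fintype_card]
    exact GaloisField.card 2 k (by omega)
  let V := Fin m' → ZMod 2
  let S := K × K
  have hVc : Fintype.card V = 2 ^ m' := by simp [V]
  have hSc : Fintype.card S = 2 ^ (2 * k) := by
    simp only [S, Fintype.card_prod, hKc]
    rw [← pow_add]
    congr 1
    omega
  have hV2 : ∀ v : V, v + v = 0 := fun v => by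
    funext i
    exact CharTwo.add_self_eq_zero _
  obtain ⟨φ, hφ⟩ : ∃ φ : K →+ ZMod 2, φ ≠ 0 := by
    obtain ⟨f, hf⟩ := exists_hom (Y := K) (fun y => CharTwo.add_self_eq_zero y) (one_ne_zero)
    exact ⟨f, fun h => by simp [h] at hf⟩
  let g : S → V := gen φ m'
  have hE : Exp g (1 / 1024) := by
    refine exp_of_charBd hV2 (by norm_num) fun f hf => (charBd_gen hφ m' f hf).trans ?_
    rw [hKc, div_le_div_iff₀ (by positivity) (by norm_num)]
    have : 1024 * m' ≤ 2 ^ k := by omega
    have h' : (1024 * m' : ℝ) ≤ 2 ^ k := by exact_mod_cast this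
    push_cast
    linarith
  -- the inner code
  obtain ⟨P₁, hP₁, hd₁⟩ := exists_inner (S := S) (2 ^ (2 * k - 7)) (by
    rw [hSc]
    have : 2 * k = 7 + (2 * k - 7) := by omega
    conv_lhs => rw [this, pow_add]
    norm_num) Nat.one_le_two_pow
  have hS0 : 0 < Fintype.card S := by rw [hSc]; positivity
  have hSr : (Fintype.card S : ℝ) = 128 * 2 ^ (2 * k - 7) := by
    rw [hSc]
    have : 2 * k = 7 + (2 * k - 7) := by omega
    conv_lhs => rw [this, pow_add]
    push_cast
    norm_num
  have hVr : (Fintype.card V : ℝ) = 2 ^ 17 * 2 ^ (m' - 17) := by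
    rw [hVc]
    have : m' = 17 + (m' - 17) := by omega
    conv_lhs => rw [this, pow_add]
    push_cast
    norm_num
  have hδ : (1 / 128 : ℝ) * Fintype.card S ≤ (2 ^ (2 * k - 7) + 1 : ℕ) := by
    rw [hSr]
    push_cast
    linarith
  have hpm : (1 : ℝ) ≤ 2 ^ (m' - 17) := one_le_pow₀ (by norm_num)
  have hdist : DistGe (tan g P₁) (2 ^ (m - 15)) := by
    refine tan_dist hV2 hd₁ hE hδ (by norm_num) hS0 ?_ (by norm_num)
    rw [hSr, hVr]
    have e : (2 : ℝ) ^ (m - 15) = 2 ^ 9 * (2 ^ (m' - 17) * 2 ^ (2 * k - 7)) := by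
      rw [← pow_add, ← pow_add]
      congr 1
      omega
    push_cast
    rw [e]
    have : (0 : ℝ) ≤ 2 ^ (m' - 17) * 2 ^ (2 * k - 7) := by positivity
    nlinarith
  have hsm : Smooth.{u} (tan g P₁) (Fintype.card S) (2 ^ (m' - 15)) (2 ^ (m' - 11))
      (4 * Fintype.card S) := by
    refine tan_smooth hV2 hd₁ (lam := 1 / 1024) (δ := 1 / 128) (mu := 1 / 256) (theta := 1 / 512) hE
      (by norm_num) (by norm_num) hδ hS0 (by norm_num) (by norm_num) ?_ ?_
    · rw [hVr]
      have e : (2 : ℝ) ^ (m' - 15) = 4 * 2 ^ (m' - 17) := by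
        have : m' - 15 = 2 + (m' - 17) := by omega
        rw [this, pow_add]
        norm_num
      push_cast
      rw [e]
      linarith
    · rw [hVr]
      have e : (2 : ℝ) ^ (m' - 11) = 64 * 2 ^ (m' - 17) := by
        have : m' - 11 = 6 + (m' - 17) := by omega
        rw [this, pow_add]
        norm_num
      push_cast
      rw [e]
      linarith
  -- the dimension
  have hfin : 4 * Module.finrank (ZMod 2) (tan g P₁) ≤ 2 ^ m := by
    have h1 := finrank_tan_le g P₁
    rw [hVc] at h1
    have h2 : 2 * 2 ^ m' * Module.finrank (ZMod 2) P₁ ≤ 2 * 2 ^ m' * (16 * 2 ^ (2 * k - 7)) :=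
      Nat.mul_le_mul_left _ hP₁
    have h3 : 4 * (2 * 2 ^ m' * (16 * 2 ^ (2 * k - 7))) = 2 ^ m := by
      have : m = 7 + m' + (2 * k - 7) := by omega
      rw [this, pow_add, pow_add]
      ring
    omega
  -- agreement
  have hagree : Agree.{u} (tan g P₁) (tan g P₁) (2 ^ m) (2 ^ 77 * m ^ 4) := by
    intro E _ _ R M hR hM
    set NE := ∑ i, wt (R i - M i) with hNE
    have hD4 : 2 ^ (4 * k) ≤ 2 ^ 44 * m ^ 4 := by
      calc 2 ^ (4 * k) = (2 ^ k) ^ 4 := by rw [← pow_mul, mul_comm k 4]
        _ ≤ (2048 * m) ^ 4 := Nat.pow_le_pow_left hk2 4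
        _ = _ := by ring
    have hfinal : 2 ^ 33 * 2 ^ (4 * k) * NE ≤ 2 ^ 77 * m ^ 4 * NE := by
      refine Nat.mul_le_mul_right _ ?_
      calc 2 ^ 33 * 2 ^ (4 * k) ≤ 2 ^ 33 * (2 ^ 44 * m ^ 4) := Nat.mul_le_mul_left _ hD4
        _ = _ := by ring
    have hcard : Fintype.card (V × S) = 2 ^ m := by
      rw [Fintype.card_prod, hVc, hSc, ← pow_add]
      congr 1
      omega
    set h := 2 ^ (m' - 15) with hh
    have hh0 : 0 < h := by positivity
    have hrow : ∀ s : Finset (V × S), (∀ i ∈ s, h ≤ wt (fun j => R i j - M i j)) →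
        s.card ≤ NE / h := by
      intro s hs
      rw [Nat.le_div_iff_mul_le hh0]
      calc s.card * h = ∑ i ∈ s, h := by rw [sum_const, smul_eq_mul]
        _ ≤ ∑ i ∈ s, wt (R i - M i) := sum_le_sum fun i hi => hs i hi
        _ ≤ NE := sum_le_sum_of_subset (subset_univ _)
    have hcol : ∀ s : Finset (V × S), (∀ j ∈ s, h ≤ wt (fun i => R i j - M i j)) →
        s.card ≤ NE / h := by
      intro s hs
      rw [Nat.le_div_iff_mul_le hh0]
      calc s.card * h = ∑ j ∈ s, h := by rw [sum_const, smul_eq_mul]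
        _ ≤ ∑ j ∈ s, wt (fun i => R i j - M i j) := sum_le_sum fun j hj => hs j hj
        _ ≤ ∑ j, wt (fun i => R i j - M i j) := sum_le_sum_of_subset (subset_univ _)
        _ = NE := (sum_wt_comm fun i j => R i j - M i j).symm
    by_cases hNr : NE / h < 2 ^ (m' - 17)
    · obtain ⟨Z, hZ1, hZ2, hZ3, hZ4⟩ := agree_of_smooth hdist hdist hsm (by
          rw [hSc, hh, ← pow_add]
          exact (Nat.pow_le_pow_right (by norm_num) (by omega))) hR hM (NE / h) (NE / h) hrow hcol
          (hNr.le.trans (Nat.pow_le_pow_right (by norm_num) (by omega))) (by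
            rw [hSc]
            calc 4 * 2 ^ (2 * k) * (NE / h) < 4 * 2 ^ (2 * k) * 2 ^ (m' - 17) :=
                  Nat.mul_lt_mul_of_pos_left hNr (by positivity)
              _ = 2 ^ (m - 15) := by
                  have : m - 15 = 2 + 2 * k + (m' - 17) := by omega
                  rw [this, pow_add, pow_add]
                  norm_num) (lt_of_lt_of_le hNr (Nat.pow_le_pow_right (by norm_num) (by omega)))
      refine ⟨Z, hZ1, hZ2, le_trans ?_ hfinal⟩
      have k1 : wt (fun i => R i - Z i) ≤ 4 * Fintype.card S * (NE / h) := by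
        refine le_trans (le_of_eq ?_) hZ3
        rw [wt_eq_card]
        congr 1
        ext i
        simp [sub_eq_zero]
      have k2 : wt (fun j => (fun i => M i j) - fun i => Z i j) ≤ NE / h := by
        refine le_trans (le_of_eq ?_) hZ4
        rw [wt_eq_card]
        congr 1
        ext j
        simp only [mem_filter, mem_univ, true_and, ne_eq, sub_eq_zero, funext_iff, not_forall]
      rw [hSc] at k1
      have k3 : NE / h * h ≤ NE := Nat.div_mul_le_self _ _
      have k4 : 2 ^ m = h * (2 ^ 15 * 2 ^ (2 * k)) := by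
        rw [hh, ← pow_add, ← pow_add]
        congr 1
        omega
      have k5 : wt (fun i => R i - Z i) + wt (fun j => (fun i => M i j) - fun i => Z i j) ≤
          5 * 2 ^ (2 * k) * (NE / h) := by
        have : 1 * (NE / h) ≤ 2 ^ (2 * k) * (NE / h) :=
          Nat.mul_le_mul_right _ (Nat.one_le_two_pow)
        nlinarith
      calc _ ≤ 5 * 2 ^ (2 * k) * (NE / h) * 2 ^ m := Nat.mul_le_mul_right _ k5
        _ = 5 * 2 ^ 15 * (2 ^ (2 * k) * 2 ^ (2 * k)) * (NE / h * h) := by rw [k4]; ring
        _ = 5 * 2 ^ 15 * 2 ^ (4 * k) * (NE / h * h) := by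
            rw [← pow_add]
            congr 3
            omega
        _ ≤ 2 ^ 33 * 2 ^ (4 * k) * NE := by
            refine Nat.mul_le_mul (Nat.mul_le_mul_right _ (by norm_num)) k3
    · push Not at hNr
      refine ⟨0, fun i => Submodule.zero_mem _, fun j => Submodule.zero_mem _,
        le_trans ?_ hfinal⟩
      have k1 : wt (fun i => R i - (0 : V × S → V × S → E) i) ≤ 2 ^ m := by
        rw [← hcard]
        exact wt_le_univ _
      have k2 : wt (fun j => (fun i => M i j) - fun i => (0 : V × S → V × S → E) i j) ≤ 2 ^ m := by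
        rw [← hcard]
        exact wt_le_univ _
      have k3 : 2 ^ (m' - 17) * h ≤ NE :=
        (Nat.mul_le_mul_right _ hNr).trans (Nat.div_mul_le_self _ _)
      calc _ ≤ (2 ^ m + 2 ^ m) * 2 ^ m := Nat.mul_le_mul_right _ (Nat.add_le_add k1 k2)
        _ = 2 ^ 33 * 2 ^ (4 * k) * (2 ^ (m' - 17) * h) := by
            have e1 : (2 ^ m + 2 ^ m) * 2 ^ m = 2 ^ (1 + m + m) := by
              rw [pow_add, pow_add]
              ring
            rw [e1, hh, ← pow_add, ← pow_add, ← pow_add]
            congr 1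
            omega
        _ ≤ _ := Nat.mul_le_mul_left _ k3
  -- names of the coordinates
  obtain ⟨e⟩ : Nonempty (Fin (2 ^ m) ≃ V × S) := by
    refine ⟨(Fintype.equivFinOfCardEq ?_).symm⟩
    rw [Fintype.card_prod, hVc, hSc, ← pow_add]
    congr 1
    omega
  exact ⟨reix e (tan g P₁), (Nat.mul_le_mul_left _ (finrank_reix_le e _)).trans hfin,
    hdist.reix e, hagree.reix e e⟩

end Vale.Agent.P330.W
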