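import Vale.Agent.P330.W.H170.Loc
import Vale.Agent.P330.W.H709.LTCG
import Vale.Agent.P330.W.H972.Info

/-!
# The local codes over a field of characteristic two, in the form used by the local tester

`scal c P` is the code with checks `P : Submodule (ZMod 2) _` over a field `F ⊇ ZMod 2`, after the
diagonal scaling `c`.  `exists_local` delivers for every `m ≥ 64` two check spaces `P false`,
`P true` (a permutation of each other) with disjoint information sets `B1`, `B2` and a further
label `b0`, distance `2 ^ (m - 15)` and `CodeAT` for all the pairs and all the diagonal scalings.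
-/

set_option linter.unusedSectionVars false

namespace Vale.Agent.P330.W

open Finset
open Vale.Agent.P330.W.H709 (CodeAT InT)
open Vale.Agent.P330.W.H972 (IsInfo permSub mem_permSub exists_choice)
open scoped BigOperators

section scal

variable {F : Type*} [Field F] [Algebra (ZMod 2) F] {α β : Type*} [Fintype α] [Fintype β]

/-- The code over `F` with the checks `P`, scaled by `c`. -/
def scal (c : α → F) (P : Submodule (ZMod 2) (α → ZMod 2)) : Submodule F (α → F) where
  carrier := {x | (fun a => c a * x a) ∈ Wd P F}
  add_mem' := by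
    intro x y hx hy
    have : (fun a => c a * (x + y) a) = (fun a => c a * x a) + fun a => c a * y a := by
      funext a
      simp [mul_add]
    rw [Set.mem_ofPred_eq, this]
    exact Submodule.add_mem _ hx hy
  zero_mem' := by
    have : (fun a => c a * (0 : α → F) a) = 0 := by
      funext a
      simp
    rw [Set.mem_ofPred_eq, this]
    exact Submodule.zero_mem _
  smul_mem' := by
    intro r x hx h hh
    have h1 := hx h hh
    have : ∑ i, h i • (fun a => c a * (r • x) a) i = r * ∑ i, h i • (fun a => c a * x a) i := by
      rw [mul_sum]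
      refine sum_congr rfl fun i _ => ?_
      simp only [Pi.smul_apply, smul_eq_mul, mul_smul_comm]
      congr 1
      ring
    rw [this, h1, mul_zero]

theorem mem_scal {c : α → F} {P : Submodule (ZMod 2) (α → ZMod 2)} {x : α → F} :
    x ∈ scal c P ↔ (fun a => c a * x a) ∈ Wd P F := Iff.rfl

/-- The distance of the scaled code. -/
theorem scal_dist {c : α → F} {P : Submodule (ZMod 2) (α → ZMod 2)} {d : ℕ} (hP : DistGe P d)
    (hc : ∀ a, c a ≠ 0) {x : α → F} (hx : x ∈ scal c P) (h0 : x ≠ 0) : d ≤ wt x := by
  refine (hP.le_wt (mem_scal.1 hx) ?_).trans (wt_le_of_supp fun a ha h => ha (by simp [h]))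
  intro h1
  apply h0
  funext a
  have := congrFun h1 a
  simpa [hc a] using this

theorem Wd_pi {P : Submodule (ZMod 2) (α → ZMod 2)} {X : Type*} {x : α → X → F} :
    x ∈ Wd P (X → F) ↔ ∀ y, (fun a => x a y) ∈ Wd P F := by
  constructor
  · intro hx y h hh
    have := congrFun (hx h hh) y
    simpa using this
  · intro hx h hh
    funext y
    have := hx y h hh
    simpa using this

/-- From the binary agreement statement to the form of the local tester. -/
theorem codeAT_of_agree.{u, v} {F : Type u} [Field F] [Algebra (ZMod 2) F]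
    {PA : Submodule (ZMod 2) (α → ZMod 2)} {PB : Submodule (ZMod 2) (β → ZMod 2)} {n T : ℕ}
    (h : Agree.{max u v} PA PB n T) (hT : 0 < T) {c : α → F} {d : β → F} (hc : ∀ a, c a ≠ 0)
    (hd : ∀ b, d b ≠ 0) (X : Type v) : CodeAT X (scal c PA) (scal d PB) ((n : ℝ) / T) := by
  classical
  intro R K hR hK
  obtain ⟨Z, hZ1, hZ2, hZ3⟩ := h (X → F) (fun a b x => c a * (d b * R a b x))
    (fun a b x => c a * (d b * K a b x)) (by
      intro a
      rw [Wd_pi]
      intro x f hf
      have h1 := mem_scal.1 (hR a x) f hf
      simp only [← mul_smul_comm, ← mul_sum] at h1 ⊢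
      rw [h1, mul_zero]) (by
      intro b
      rw [Wd_pi]
      intro x f hf
      have h1 := mem_scal.1 (hK b x) f hf
      have : ∑ i, f i • (fun a => c a * (d b * K a b x)) i =
          d b * ∑ i, f i • (fun a => c a * K a b x) i := by
        rw [mul_sum]
        refine sum_congr rfl fun i _ => ?_
        simp only [mul_smul_comm]
        congr 1
        ring
      rw [this, h1, mul_zero])
  refine ⟨fun a b x => (c a)⁻¹ * ((d b)⁻¹ * Z a b x), ⟨?_, ?_⟩, ?_⟩
  · intro a x
    rw [mem_scal]
    intro f hf
    have h1 := (Wd_pi.1 (hZ1 a) x) f hf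
    have : ∑ i, f i • (fun b => d b * ((c a)⁻¹ * ((d b)⁻¹ * Z a b x))) i =
        (c a)⁻¹ * ∑ i, f i • Z a i x := by
      rw [mul_sum]
      refine sum_congr rfl fun i _ => ?_
      rw [mul_smul_comm]
      congr 1
      have := hd i
      field_simp
    rw [this, h1, mul_zero]
  · intro b x
    rw [mem_scal]
    intro f hf
    have h1 := (Wd_pi.1 (hZ2 b) x) f hf
    have : ∑ i, f i • (fun a => c a * ((c a)⁻¹ * ((d b)⁻¹ * Z a b x))) i =
        (d b)⁻¹ * ∑ i, f i • Z i b x := by
      rw [mul_sum]
      refine sum_congr rfl fun i _ => ?_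
      rw [mul_smul_comm]
      congr 1
      have := hc i
      field_simp
    rw [this, h1, mul_zero]
  · -- the counts
    have key : ∀ a b (y z : X → F), (fun x => c a * (d b * y x)) = z ↔
        (fun x => (c a)⁻¹ * ((d b)⁻¹ * z x)) = y := by
      intro a b y z
      have h1 := hc a
      have h2 := hd b
      constructor
      · rintro rfl
        funext x
        field_simp
      · rintro rfl
        funext x
        field_simp
    have e1 : (∑ a, if (fun b x => (c a)⁻¹ * ((d b)⁻¹ * Z a b x)) = R a then 0 else 1 : ℕ) =
        wt (fun a => (fun b x => c a * (d b * R a b x)) - Z a) := by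
      rw [wt_eq_card, card_filter]
      refine sum_congr rfl fun a _ => ?_
      have : (fun b x => (c a)⁻¹ * ((d b)⁻¹ * Z a b x)) = R a ↔
          (fun b x => c a * (d b * R a b x)) - Z a = 0 := by
        rw [sub_eq_zero]
        constructor
        · intro h'
          funext b
          exact (key a b _ _).2 (congrFun h' b)
        · intro h'
          funext b
          exact (key a b _ _).1 (congrFun h' b)
      by_cases h' : (fun b x => (c a)⁻¹ * ((d b)⁻¹ * Z a b x)) = R a
      · rw [if_pos h', if_neg (not_not.2 (this.1 h'))]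
      · rw [if_neg h', if_pos fun h'' => h' (this.2 h'')]
    have e2 : (∑ b, if ∀ a, (fun x => (c a)⁻¹ * ((d b)⁻¹ * Z a b x)) = K a b then 0 else 1 : ℕ) =
        wt (fun b => (fun a x => c a * (d b * K a b x)) - fun a => Z a b) := by
      rw [wt_eq_card, card_filter]
      refine sum_congr rfl fun b _ => ?_
      have : (∀ a, (fun x => (c a)⁻¹ * ((d b)⁻¹ * Z a b x)) = K a b) ↔
          (fun a x => c a * (d b * K a b x)) - (fun a => Z a b) = 0 := by
        rw [sub_eq_zero]
        constructor
        · intro h'
          funext a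
          exact (key a b _ _).2 (h' a)
        · intro h' a
          exact (key a b _ _).1 (congrFun h' a)
      by_cases h' : ∀ a, (fun x => (c a)⁻¹ * ((d b)⁻¹ * Z a b x)) = K a b
      · rw [if_pos h', if_neg (not_not.2 (this.1 h'))]
      · rw [if_neg h', if_pos fun h'' => h' (this.2 h'')]
    have e3 : (∑ a, ∑ b, if R a b = K a b then 0 else 1 : ℕ) =
        ∑ a, wt ((fun b x => c a * (d b * R a b x)) - fun b x => c a * (d b * K a b x)) := by
      refine sum_congr rfl fun a _ => ?_
      rw [wt_eq_card, card_filter]
      refine sum_congr rfl fun b _ => ?_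
      have : R a b = K a b ↔ ((fun b x => c a * (d b * R a b x)) -
          fun b x => c a * (d b * K a b x)) b = 0 := by
        rw [Pi.sub_apply, sub_eq_zero, key a b]
        constructor
        · intro h'
          rw [h', ← key]
        · intro h'
          rw [← h', ← key]
      by_cases h' : R a b = K a b
      · rw [if_pos h', if_neg (not_not.2 (this.1 h'))]
      · rw [if_neg h', if_pos fun h'' => h' (this.2 h'')]
    have hT' : (0 : ℝ) < T := by exact_mod_cast hT
    rw [e1, e2, e3, div_mul_eq_mul_div, div_le_iff₀ hT', mul_comm (n : ℝ)]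
    rw [mul_comm T] at hZ3
    exact_mod_cast hZ3

end scal

theorem permSub_eq_reix {K : Type*} [Field K] {α : Type*} [Fintype α] (π : Equiv.Perm α)
    (P : Submodule K (α → K)) : permSub π P = reix π.symm P := by
  ext x
  constructor
  · intro hx
    refine ⟨fun i => x (π i), mem_permSub.1 hx, ?_⟩
    funext i
    simp [LinearMap.funLeft]
  · rintro ⟨y, hy, rfl⟩
    rw [mem_permSub]
    have : (fun i => (LinearMap.funLeft K K π.symm) y (π i)) = y := by
      funext i
      simp [LinearMap.funLeft]
    rw [this]
    exact hy

theorem finrank_permSub {K : Type*} [Field K] {α : Type*} [Fintype α] [DecidableEq α]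
    (π : Equiv.Perm α) (P : Submodule K (α → K)) :
    Module.finrank K (permSub π P) = Module.finrank K P := by
  refine le_antisymm ?_ ?_
  · rw [permSub_eq_reix]
    exact finrank_reix_le _ _
  · have : permSub π.symm (permSub π P) = P := by
      ext x
      rw [mem_permSub, mem_permSub]
      simp
    conv_lhs => rw [← this]
    rw [permSub_eq_reix]
    exact finrank_reix_le _ _

/-- **The local codes.** -/
theorem exists_local.{u, v} {m : ℕ} (hm : 64 ≤ m) :
    ∃ (P : Bool → Submodule (ZMod 2) (Fin (2 ^ m) → ZMod 2)) (B : Bool → Finset (Fin (2 ^ m)))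
      (b0 : Fin (2 ^ m)),
      (∀ i, (B i).card = Module.finrank (ZMod 2) (P i)) ∧ Disjoint (B false) (B true) ∧
      (∀ i, b0 ∉ B i) ∧ (∀ i, IsInfo (P i) (B i)) ∧ (∀ i, DistGe (P i) (2 ^ (m - 15))) ∧
      ∀ (F : Type u) [Field F] [Algebra (ZMod 2) F] (X : Type v)
        (c d : Fin (2 ^ m) → F), (∀ a, c a ≠ 0) → (∀ a, d a ≠ 0) → ∀ i j,
        CodeAT X (scal c (P i)) (scal d (P j)) ((2 ^ m : ℕ) / (2 ^ 77 * m ^ 4 : ℕ) : ℝ) := by
  obtain ⟨P, hP1, hP2, hP3⟩ := exists_loc.{max u v} hm
  obtain ⟨B1, B2, b0, π, h1, -, h2, h3, h4, h5, h6, h7⟩ := exists_choice P (by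
    rw [Fintype.card_fin]
    have : 0 < 2 ^ m := by positivity
    omega)
  refine ⟨fun i => if i then permSub π P else P, fun i => if i then B2 else B1, b0, ?_, ?_, ?_, ?_,
    ?_, ?_⟩
  · intro i
    cases i
    · simpa using h1
    · simpa [finrank_permSub] using h2
  · simpa using h3
  · intro i
    cases i
    · simpa using h4
    · simpa using h5
  · intro i
    cases i
    · simpa using h6
    · simpa using h7
  · intro i
    cases i
    · simpa using hP2
    · simpa [permSub_eq_reix] using hP2.reix π.symm
  · intro F _ _ X c d hc hd i j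
    have hag : ∀ i j : Bool, Agree.{max u v} (if i then permSub π P else P)
        (if j then permSub π P else P) (2 ^ m) (2 ^ 77 * m ^ 4) := by
      intro i j
      have hid : P = reix (Equiv.refl _) P := by
        unfold reix
        have : LinearMap.funLeft (ZMod 2) (ZMod 2) (Equiv.refl (Fin (2 ^ m))) =
            LinearMap.id := by
          ext x i
          rfl
        rw [this, Submodule.map_id]
      cases i <;> cases j <;> simp only [if_true, if_false, Bool.false_eq_true]
      · exact hP3
      · have := hP3.reix (Equiv.refl _) π.symm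
        rwa [← hid, ← permSub_eq_reix] at this
      · have := hP3.reix π.symm (Equiv.refl _)
        rwa [← hid, ← permSub_eq_reix] at this
      · have := hP3.reix π.symm π.symm
        rwa [← permSub_eq_reix] at this
    have hm0 : 0 < m := by omega
    exact codeAT_of_agree (F := F) (PA := if i then permSub π P else P)
      (PB := if j then permSub π P else P) (n := 2 ^ m) (T := 2 ^ 77 * m ^ 4) (hag i j)
      (by positivity) (c := c) (d := d) hc hd X

end Vale.Agent.P330.W
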