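import Vale.Agent.P330.W.H170.Code

/-!
# Tanner codes on the double cover of a Cayley graph of an elementary abelian 2-group

Coordinates are the pairs `(v, s)`, `v : V`, `s : S`.  The coordinate `(v, s)` is an edge between
the left vertex `v` and the right vertex `v + g s`.
-/

set_option linter.unusedSectionVars false

namespace Vale.Agent.P330.W

open Finset
open scoped BigOperators

section tanner

variable {K : Type*} [Field K] {V S : Type*} [AddCommGroup V] [Fintype V] [DecidableEq V]
  [Fintype S] [DecidableEq S]

/-- The coordinates seen by the vertex `v` on the side `b`. -/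
def pos (g : S → V) (b : Bool) (v : V) (s : S) : V × S := (if b then v + g s else v, s)

@[simp] theorem pos_false (g : S → V) (v : V) (s : S) : pos g false v s = (v, s) := rfl

@[simp] theorem pos_true (g : S → V) (v : V) (s : S) : pos g true v s = (v + g s, s) := rfl

/-- A local check, as a check of the whole code. -/
def extc (K : Type*) [Field K] (g : S → V) (b : Bool) (v : V) : (S → K) →ₗ[K] (V × S → K) where
  toFun f p := if p = pos g b v p.2 then f p.2 else 0
  map_add' f f' := by
    funext p
    simp only [Pi.add_apply]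
    split_ifs
    · rfl
    · rw [add_zero]
  map_smul' c f := by
    funext p
    simp only [Pi.smul_apply, RingHom.id_apply]
    split_ifs
    · rfl
    · rw [smul_zero]

theorem extc_apply (g : S → V) (b : Bool) (v : V) (f : S → K) (p : V × S) :
    extc K g b v f p = if p = pos g b v p.2 then f p.2 else 0 := rfl

theorem extc_sum {E : Type*} [AddCommGroup E] [Module K E] (g : S → V) (b : Bool) (v : V)
    (f : S → K) (x : V × S → E) :
    ∑ p, extc K g b v f p • x p = ∑ s, f s • x (pos g b v s) := by
  classical
  have h1 : ∑ p, extc K g b v f p • x p =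
      ∑ p ∈ univ.image (pos g b v), extc K g b v f p • x p := by
    symm
    refine sum_subset (subset_univ _) fun p _ hp => ?_
    rw [extc_apply, if_neg, zero_smul]
    intro h
    exact hp (h ▸ mem_image_of_mem _ (mem_univ _))
  rw [h1, sum_image]
  · refine sum_congr rfl fun s _ => ?_
    rw [extc_apply, if_pos]
    · cases b <;> rfl
    · cases b <;> rfl
  · intro s _ s' _ h
    exact congrArg Prod.snd h

/-- The checks of the Tanner code. -/
noncomputable def tan (g : S → V) (P : Submodule K (S → K)) : Submodule K (V × S → K) :=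
  LinearMap.range (∑ c : Bool × V, (extc K g c.1 c.2).comp
    (P.subtype.comp (LinearMap.proj (R := K) (φ := fun _ : Bool × V => P) c)))

theorem extc_mem_tan (g : S → V) (P : Submodule K (S → K)) (b : Bool) (v : V) {f : S → K}
    (hf : f ∈ P) : extc K g b v f ∈ tan g P := by
  classical
  refine ⟨Pi.single (b, v) ⟨f, hf⟩, ?_⟩
  simp only [LinearMap.sum_apply, LinearMap.comp_apply, LinearMap.proj_apply, Submodule.subtype_apply]
  rw [sum_eq_single (b, v)]
  · simp
  · intro c _ hc
    simp [hc]
  · intro h
    exact absurd (mem_univ _) h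

theorem mem_tan (g : S → V) (P : Submodule K (S → K)) {E : Type*} [AddCommGroup E] [Module K E]
    {x : V × S → E} : x ∈ Wd (tan g P) E ↔ ∀ b v, (fun s => x (pos g b v s)) ∈ Wd P E := by
  constructor
  · intro hx b v f hf
    have := hx _ (extc_mem_tan g P b v hf)
    rwa [extc_sum] at this
  · rintro hx _ ⟨y, rfl⟩
    simp only [LinearMap.sum_apply, LinearMap.comp_apply, LinearMap.proj_apply,
      Submodule.subtype_apply, Finset.sum_apply, Finset.sum_smul]
    rw [sum_comm]
    refine sum_eq_zero fun c _ => ?_
    rw [extc_sum]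
    exact hx c.1 c.2 _ (y c).2

theorem finrank_tan_le (g : S → V) (P : Submodule K (S → K)) :
    Module.finrank K (tan g P) ≤ 2 * Fintype.card V * Module.finrank K P := by
  refine (LinearMap.finrank_range_le _).trans ?_
  rw [Module.finrank_pi_fintype]
  simp [Fintype.card_prod]

/-- The number of edges between two sets. -/
def edg (g : S → V) (X Y : Finset V) : ℕ :=
  (univ.filter fun p : V × S => p.1 ∈ X ∧ p.1 + g p.2 ∈ Y).card

/-- The expansion hypothesis. -/
def Exp (g : S → V) (lam : ℝ) : Prop :=
  ∀ X Y : Finset V, (edg g X Y : ℝ) ≤ Fintype.card S *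
    ((X.card : ℝ) * Y.card / Fintype.card V + lam / 2 * (X.card + Y.card))

open Classical in
/-- The vertices on the side `b` which see a nonzero symbol. -/
noncomputable def tch (g : S → V) {E : Type*} [Zero E] (b : Bool) (x : V × S → E) : Finset V :=
  univ.filter fun v => (fun s => x (pos g b v s)) ≠ 0

/-- The pairs `(v, s)`, indexed by the vertices of side `b`. -/
def posE (h2 : ∀ v : V, v + v = 0) (g : S → V) (b : Bool) : V × S ≃ V × S where
  toFun p := pos g b p.1 p.2
  invFun p := pos g b p.1 p.2
  left_inv p := by cases b <;> simp [add_assoc, h2]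
  right_inv p := by cases b <;> simp [add_assoc, h2]

theorem wt_eq_sum (h2 : ∀ v : V, v + v = 0) (g : S → V) {E : Type*} [Zero E] (b : Bool)
    (x : V × S → E) : wt x = ∑ v, wt fun s => x (pos g b v s) := by
  classical
  unfold wt
  simp only [card_filter]
  rw [← Fintype.sum_prod_type' (f := fun v s => if x (pos g b v s) ≠ 0 then 1 else 0)]
  exact (Equiv.sum_comp (posE h2 g b) fun p => if x p ≠ 0 then 1 else 0).symm

theorem wt_eq_sum_tch (h2 : ∀ v : V, v + v = 0) (g : S → V) {E : Type*} [Zero E] (b : Bool)
    (x : V × S → E) : wt x = ∑ v ∈ tch g b x, wt fun s => x (pos g b v s) := by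
  classical
  rw [wt_eq_sum h2 g b x]
  symm
  refine sum_subset (subset_univ _) fun v _ hv => ?_
  have : (fun s => x (pos g b v s)) = 0 := by
    by_contra h
    exact hv (by simpa [tch] using h)
  rw [this, wt_zero]

theorem card_tch_le (h2 : ∀ v : V, v + v = 0) (g : S → V) {E : Type*} [Zero E] (b : Bool)
    (x : V × S → E) : (tch g b x).card ≤ wt x := by
  rw [wt_eq_sum_tch h2 g b x, card_eq_sum_ones]
  refine sum_le_sum fun v hv => ?_
  have : (fun s => x (pos g b v s)) ≠ 0 := by simpa [tch] using hv
  exact wt_pos this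

theorem mem_tch_false {g : S → V} {E : Type*} [Zero E] {x : V × S → E} {v : V} {s : S}
    (h : x (v, s) ≠ 0) : v ∈ tch g false x := by
  simp only [tch, mem_filter, mem_univ, true_and]
  exact fun h0 => h (congrFun h0 s)

theorem mem_tch_true (h2 : ∀ v : V, v + v = 0) {g : S → V} {E : Type*} [Zero E] {x : V × S → E}
    {v : V} {s : S} (h : x (v, s) ≠ 0) : v + g s ∈ tch g true x := by
  simp only [tch, mem_filter, mem_univ, true_and]
  intro h0
  apply h
  have := congrFun h0 s
  simpa [add_assoc, h2] using this

theorem wt_le_edg (h2 : ∀ v : V, v + v = 0) (g : S → V) {E : Type*} [Zero E] (x : V × S → E) :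
    wt x ≤ edg g (tch g false x) (tch g true x) := by
  refine wt_le_card fun p hp => ?_
  simp only [mem_filter, mem_univ, true_and]
  exact ⟨mem_tch_false hp, mem_tch_true h2 hp⟩

/-- **The distance of the Tanner code.** -/
theorem tan_dist (h2 : ∀ v : V, v + v = 0) {g : S → V} {P : Submodule K (S → K)} {d1 : ℕ}
    (hP : DistGe P d1) {lam δ : ℝ} (hE : Exp g lam) (hd : δ * Fintype.card S ≤ d1)
    (hl0 : 0 ≤ lam) (hS : 0 < Fintype.card S) {d : ℕ}
    (hdd : (d : ℝ) ≤ δ * (δ - lam) * (Fintype.card V * Fintype.card S)) (hδ0 : 0 ≤ δ) :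
    DistGe (tan g P) d := by
  intro x hx hx0
  rw [mem_tan] at hx
  have hS' : (0 : ℝ) < Fintype.card S := by exact_mod_cast hS
  have hV' : (0 : ℝ) < Fintype.card V := by exact_mod_cast Fintype.card_pos_iff.2 ⟨(0 : V)⟩
  have h1 : ∀ b, d1 * (tch g b x).card ≤ wt x := by
    intro b
    rw [wt_eq_sum_tch h2 g b x, mul_comm, ← smul_eq_mul, ← sum_const]
    refine sum_le_sum fun v hv => ?_
    have : (fun s => x (pos g b v s)) ≠ 0 := by simpa [tch] using hv
    exact hP.le_wt (hx b v) this
  have h3 := wt_le_edg h2 g x
  have h4 := hE (tch g false x) (tch g true x)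
  have h5 : (0 : ℕ) < wt x := wt_pos hx0
  set n : ℝ := (Fintype.card V : ℝ) with hn
  set D : ℝ := (Fintype.card S : ℝ) with hD
  set a : ℝ := ((tch g false x).card : ℝ) with ha
  set c : ℝ := ((tch g true x).card : ℝ) with hc
  have ha0 : 0 ≤ a := Nat.cast_nonneg _
  have hc0 : 0 ≤ c := Nat.cast_nonneg _
  have h6 : δ * D * a ≤ wt x := by
    have := h1 false
    have h' : (d1 : ℝ) * a ≤ wt x := by rw [ha]; exact_mod_cast this
    nlinarith
  have h7 : δ * D * c ≤ wt x := by
    have := h1 true
    have h' : (d1 : ℝ) * c ≤ wt x := by rw [hc]; exact_mod_cast this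
    nlinarith
  have h8 : (wt x : ℝ) ≤ D * (a * c / n + lam / 2 * (a + c)) := by
    refine le_trans ?_ h4
    exact_mod_cast h3
  have h9 : (0 : ℝ) < wt x := by exact_mod_cast h5
  have main : ∀ a c : ℝ, 0 ≤ a → 0 ≤ c → c ≤ a → δ * D * a ≤ wt x → δ * D * c ≤ wt x →
      (wt x : ℝ) ≤ D * (a * c / n + lam / 2 * (a + c)) → (d : ℝ) ≤ wt x := by
    intro a c ha0 hc0 hca h6 h7 h8
    have hapos : 0 < a := by
      rcases ha0.eq_or_lt with h | h
      · exfalso
        have : c = 0 := le_antisymm (by rw [← h] at hca; exact hca) hc0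
        rw [← h, this] at h8
        simp at h8
        linarith
      · exact h
    have h10 : D * a * δ ≤ D * a * (c / n + lam) := by
      have e1 : δ * D * a ≤ D * (a * c / n + lam / 2 * (a + c)) := h6.trans h8
      have e2 : lam / 2 * (a + c) ≤ lam * a := by nlinarith
      have e3 : D * (a * c / n + lam / 2 * (a + c)) ≤ D * (a * c / n + lam * a) :=
        mul_le_mul_of_nonneg_left (by linarith) hS'.le
      have e4 : D * (a * c / n + lam * a) = D * a * (c / n + lam) := by ring
      linarith
    have h11 : δ ≤ c / n + lam := le_of_mul_le_mul_left h10 (by positivity)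
    have h12 : (δ - lam) * n ≤ c := by
      have : δ - lam ≤ c / n := by linarith
      rwa [le_div_iff₀ hV'] at this
    calc (d : ℝ) ≤ δ * (δ - lam) * (n * D) := hdd
      _ = δ * D * ((δ - lam) * n) := by ring
      _ ≤ δ * D * c := mul_le_mul_of_nonneg_left h12 (by positivity)
      _ ≤ wt x := h7
  have hfin : (d : ℝ) ≤ wt x := by
    rcases le_total c a with h | h
    · exact main a c ha0 hc0 h h6 h7 h8
    · refine main c a hc0 ha0 h h7 h6 ?_
      rw [mul_comm c a, add_comm c a]
      exact h8
  exact_mod_cast hfin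

/-- Number of edges from the vertex `(b, v)` to the set `Y` on the other side. -/
def dg (g : S → V) (v : V) (Y : Finset V) : ℕ := (univ.filter fun s : S => v + g s ∈ Y).card

theorem edg_eq_sum_false (g : S → V) (X Y : Finset V) : edg g X Y = ∑ v ∈ X, dg g v Y := by
  classical
  unfold edg dg
  simp only [card_filter]
  rw [Fintype.sum_prod_type, ← sum_subset (subset_univ X)]
  · refine sum_congr rfl fun v hv => sum_congr rfl fun s _ => ?_
    simp [hv]
  · intro v _ hv
    simp [hv]

theorem edg_eq_sum_true (h2 : ∀ v : V, v + v = 0) (g : S → V) (X Y : Finset V) :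
    edg g X Y = ∑ w ∈ Y, dg g w X := by
  classical
  rw [← edg_eq_sum_false]
  unfold edg
  refine card_bij' (fun p _ => (p.1 + g p.2, p.2)) (fun p _ => (p.1 + g p.2, p.2)) ?_ ?_ ?_ ?_
  · intro p hp
    simp only [mem_filter, mem_univ, true_and] at hp ⊢
    refine ⟨hp.2, ?_⟩
    rw [add_assoc, h2, add_zero]
    exact hp.1
  · intro p hp
    simp only [mem_filter, mem_univ, true_and] at hp ⊢
    refine ⟨hp.2, ?_⟩
    rw [add_assoc, h2, add_zero]
    exact hp.1
  · intro p _
    simp [add_assoc, h2]
  · intro p _
    simp [add_assoc, h2]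

/-- **Closure.**  Every small pair of sets is contained in a closed pair of at most twice the size. -/
theorem exists_closure (h2 : ∀ v : V, v + v = 0) {g : S → V} {lam δ mu : ℝ} (hE : Exp g lam)
    (hS : 0 < Fintype.card S) (hl : mu + 2 * lam ≤ δ) (hδ : 0 < δ) (W : Bool → Finset V)
    (hW : (2 * ((W false).card + (W true).card) + 1 : ℝ) ≤ mu * Fintype.card V) :
    ∃ U : Bool → Finset V, (∀ b, W b ⊆ U b) ∧
      (U false).card + (U true).card ≤ 2 * ((W false).card + (W true).card) ∧
      ∀ b, ∀ v ∉ U b, 2 * (dg g v (U (!b)) : ℝ) < δ * Fintype.card S := by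
  classical
  set w := (W false).card + (W true).card with hw
  -- admissible pairs
  let Adm : (Bool → Finset V) → ℕ → Prop := fun U a => (∀ b, W b ⊆ U b) ∧
    (U false).card + (U true).card = w + a ∧ a ≤ w ∧
    (a : ℝ) * (δ * Fintype.card S) ≤ 2 * edg g (U false) (U true)
  have hex : ∃ a U, Adm U a := ⟨0, W, fun b => subset_rfl, by simp [hw], Nat.zero_le _, by
    simp⟩
  obtain ⟨a, ⟨U, hU⟩, hmax⟩ : ∃ a, (∃ U, Adm U a) ∧ ∀ a', (∃ U, Adm U a') → a' ≤ a := by
    classical
    have hfin : {a | ∃ U, Adm U a}.Finite := (Set.finite_Iic w).subset fun a ha => by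
      obtain ⟨U, hU⟩ := ha
      exact hU.2.2.1
    obtain ⟨a, ha, hmax⟩ := Set.exists_max_image _ id hfin hex
    exact ⟨a, ha, fun a' ha' => hmax a' ha'⟩
  obtain ⟨hU1, hU2, hU3, hU4⟩ := hU
  refine ⟨U, hU1, by omega, ?_⟩
  intro b v hv
  by_contra hcon
  push Not at hcon
  -- add the vertex
  set U' : Bool → Finset V := Function.update U b (insert v (U b)) with hU'
  have hcard : (U' false).card + (U' true).card = w + (a + 1) := by
    cases b
    · simp only [hU', Function.update_self, ne_eq, Bool.true_eq_false, not_false_eq_true,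
        Function.update_of_ne]
      rw [card_insert_of_notMem hv]
      omega
    · simp only [hU', Function.update_self, ne_eq, Bool.false_eq_true, not_false_eq_true,
        Function.update_of_ne]
      rw [card_insert_of_notMem hv]
      omega
  have hedge : edg g (U' false) (U' true) = edg g (U false) (U true) + dg g v (U (!b)) := by
    cases b
    · simp only [hU', Function.update_self, ne_eq, Bool.true_eq_false, not_false_eq_true,
        Function.update_of_ne, Bool.not_false]
      rw [edg_eq_sum_false, edg_eq_sum_false, sum_insert hv, add_comm]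
    · simp only [hU', Function.update_self, ne_eq, Bool.false_eq_true, not_false_eq_true,
        Function.update_of_ne, Bool.not_true]
      rw [edg_eq_sum_true h2, edg_eq_sum_true h2, sum_insert hv, add_comm]
  have hsub : ∀ b', W b' ⊆ U' b' := by
    intro b'
    by_cases hb : b' = b
    · subst hb
      simp only [hU', Function.update_self]
      exact (hU1 b').trans (subset_insert _ _)
    · simp only [hU', Function.update_of_ne hb]
      exact hU1 b'
  have hS' : (0 : ℝ) < Fintype.card S := by exact_mod_cast hS
  have hV' : (0 : ℝ) < Fintype.card V := by exact_mod_cast Fintype.card_pos_iff.2 ⟨(0 : V)⟩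
  have hD : 0 < δ * Fintype.card S := by positivity
  have hedge' : ((a + 1 : ℕ) : ℝ) * (δ * Fintype.card S) ≤ 2 * edg g (U' false) (U' true) := by
    rw [hedge]
    push_cast
    linarith
  have hle : a + 1 ≤ w := by
    have h5 := hE (U' false) (U' true)
    set n : ℝ := (Fintype.card V : ℝ) with hn
    set D : ℝ := (Fintype.card S : ℝ) with hDD
    set x : ℝ := ((U' false).card : ℝ) with hx
    set y : ℝ := ((U' true).card : ℝ) with hy
    have hxy : x + y = w + (a + 1) := by
      rw [hx, hy]
      exact_mod_cast hcard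
    have hx0 : 0 ≤ x := Nat.cast_nonneg _
    have hy0 : 0 ≤ y := Nat.cast_nonneg _
    have ha' : (a : ℝ) ≤ w := by exact_mod_cast hU3
    have hsmall : x + y ≤ mu * n := by
      rw [hxy]
      have : (2 * (((W false).card : ℝ) + (W true).card) + 1 : ℝ) = 2 * (w : ℝ) + 1 := by
        rw [hw]; push_cast; ring
      rw [this] at hW
      linarith
    have h6 : x * y / n ≤ mu / 4 * (x + y) := by
      rw [div_le_iff₀ hV']
      have e1 : x * y ≤ (x + y) ^ 2 / 4 := by nlinarith [sq_nonneg (x - y)]
      have e2 : (x + y) ^ 2 / 4 ≤ (x + y) * (mu * n) / 4 := by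
        have : (x + y) * (x + y) ≤ (x + y) * (mu * n) :=
          mul_le_mul_of_nonneg_left hsmall (by linarith)
        nlinarith
      calc x * y ≤ _ := e1
        _ ≤ _ := e2
        _ = mu / 4 * (x + y) * n := by ring
    have h7 : (edg g (U' false) (U' true) : ℝ) ≤ D * (δ / 4 * (x + y)) := by
      refine h5.trans (mul_le_mul_of_nonneg_left ?_ hS'.le)
      have : (mu / 4 + lam / 2) * (x + y) ≤ δ / 4 * (x + y) :=
        mul_le_mul_of_nonneg_right (by linarith) (by linarith)
      nlinarith
    have h8 : ((a + 1 : ℕ) : ℝ) * (δ * D) ≤ (x + y) / 2 * (δ * D) := by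
      calc _ ≤ 2 * (edg g (U' false) (U' true) : ℝ) := hedge'
        _ ≤ 2 * (D * (δ / 4 * (x + y))) := by linarith
        _ = _ := by ring
    have h9 := le_of_mul_le_mul_right h8 hD
    rw [hxy] at h9
    push_cast at h9
    have : ((a + 1 : ℕ) : ℝ) ≤ w := by push_cast; linarith
    exact_mod_cast this
  have := hmax (a + 1) ⟨U', hsub, hcard, hle, hedge'⟩
  omega

/-- **The Tanner code is smooth.** -/
theorem tan_smooth.{u} (h2 : ∀ v : V, v + v = 0) {g : S → V} {P : Submodule K (S → K)} {d1 : ℕ}
    (hP : DistGe P d1) {lam δ mu theta : ℝ} (hE : Exp g lam) (hl0 : 0 ≤ lam) (hδ : 0 < δ)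
    (hd : δ * Fintype.card S ≤ d1) (hS : 0 < Fintype.card S) (hl : mu + 2 * lam ≤ δ)
    (hth : 2 * (theta + lam) < δ) {h N : ℕ} (hh : (h : ℝ) ≤ theta * Fintype.card V)
    (hN : (4 * N + 1 : ℝ) ≤ mu * Fintype.card V) :
    Smooth.{u} (tan g P) (Fintype.card S) h N (4 * Fintype.card S) := by
  classical
  refine ⟨{f | ∃ b v, ∃ f' ∈ P, f = extc K g b v f'}, ?_, ?_, ?_⟩
  · rintro _ ⟨b, v, f', hf', rfl⟩
    exact extc_mem_tan g P b v hf'
  · rintro _ ⟨b, v, f', hf', rfl⟩
    refine (wt_le_card (s := univ.image (pos g b v)) fun p hp => ?_).trans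
      (card_image_le.trans (by simp))
    rw [extc_apply] at hp
    by_cases h' : p = pos g b v p.2
    · rw [h']
      exact mem_image_of_mem _ (mem_univ _)
    · simp [h'] at hp
  · intro X₀ hX₀
    set W : Bool → Finset V := fun b => X₀.image fun p => (pos g b p.1 p.2).1 with hW
    have hWc : ∀ b, (W b).card ≤ X₀.card := fun b => card_image_le
    have hWc' : (2 * (((W false).card : ℝ) + (W true).card) + 1 : ℝ) ≤ mu * Fintype.card V := by
      have h1 : ((W false).card : ℝ) ≤ N := by exact_mod_cast (hWc false).trans hX₀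
      have h3 : ((W true).card : ℝ) ≤ N := by exact_mod_cast (hWc true).trans hX₀
      linarith
    obtain ⟨U, hU1, hU2, hU3⟩ := exists_closure h2 hE hS hl hδ W hWc'
    refine ⟨U false ×ˢ univ, ?_, ?_⟩
    · rw [card_product, card_univ]
      have h1 := hWc false
      have h3 := hWc true
      have : (U false).card ≤ 4 * X₀.card := by omega
      calc (U false).card * Fintype.card S ≤ 4 * X₀.card * Fintype.card S :=
            Nat.mul_le_mul_right _ this
        _ = _ := by ring
    · intro E _ _ e he hchk
      -- the views away from `W` are codewords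
      have hview : ∀ b, ∀ v ∉ W b, (fun s => e (pos g b v s)) ∈ Wd P E := by
        intro b v hv f hf
        have h1 := hchk _ ⟨b, v, f, hf, rfl⟩ ?_
        · rwa [extc_sum] at h1
        · intro p hp
          rw [extc_apply, if_neg]
          intro h'
          apply hv
          refine mem_image.2 ⟨p, hp, ?_⟩
          have h4 : p.1 = (pos g b v p.2).1 := congrArg Prod.fst h'
          rw [h4]
          cases b
          · rfl
          · simp [add_assoc, h2]
      set T : Bool → Finset V := fun b => tch g b e \ U b with hT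
      have hTc : ∀ b, ((T b).card : ℝ) ≤ theta * Fintype.card V := by
        intro b
        have h1 : (T b).card ≤ wt e := (card_le_card sdiff_subset).trans (card_tch_le h2 g b e)
        have h3 : ((T b).card : ℝ) ≤ h := by exact_mod_cast (h1.trans he.le)
        exact h3.trans hh
      -- every vertex of `T b` has many edges to `T (!b)`
      have hdeg : ∀ b, ∀ v ∈ T b, δ * Fintype.card S ≤ 2 * (dg g v (T (!b)) : ℝ) := by
        intro b v hv
        obtain ⟨hv1, hv2⟩ := mem_sdiff.1 hv
        have hv3 : v ∉ W b := fun h' => hv2 (hU1 b h')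
        have hne : (fun s => e (pos g b v s)) ≠ 0 := by simpa [tch] using hv1
        have h1 := hP.le_wt (hview b v hv3) hne
        have h3 : wt (fun s => e (pos g b v s)) ≤ dg g v (U (!b)) + dg g v (T (!b)) := by
          refine (wt_le_card (s := (univ.filter fun s : S => v + g s ∈ U (!b)) ∪
            univ.filter fun s : S => v + g s ∈ T (!b)) fun s hs => ?_).trans (card_union_le _ _)
          have h4 : v + g s ∈ tch g (!b) e := by
            cases b
            · exact mem_tch_true h2 hs
            · exact mem_tch_false hs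
          by_cases h5 : v + g s ∈ U (!b)
          · exact mem_union_left _ (by simpa using h5)
          · exact mem_union_right _ (by simpa [hT] using ⟨h4, h5⟩)
        have h4 := hU3 b v hv2
        have h5 : (d1 : ℝ) ≤ dg g v (U (!b)) + dg g v (T (!b)) := by exact_mod_cast h1.trans h3
        linarith
      have hS' : (0 : ℝ) < Fintype.card S := by exact_mod_cast hS
      have hV' : (0 : ℝ) < Fintype.card V := by
        exact_mod_cast Fintype.card_pos_iff.2 ⟨(0 : V)⟩
      have hedg0 : (T false).card * (δ * Fintype.card S) ≤ 2 * (edg g (T false) (T true) : ℝ) := by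
        rw [edg_eq_sum_false, ← nsmul_eq_mul, ← sum_const]
        push_cast
        rw [mul_sum]
        exact sum_le_sum fun v hv => hdeg false v hv
      have hedg1 : (T true).card * (δ * Fintype.card S) ≤ 2 * (edg g (T false) (T true) : ℝ) := by
        rw [edg_eq_sum_true h2, ← nsmul_eq_mul, ← sum_const]
        push_cast
        rw [mul_sum]
        exact sum_le_sum fun v hv => hdeg true v hv
      have h5 := hE (T false) (T true)
      have hTemp : (T false).card = 0 ∧ (T true).card = 0 := by
        have t0 := hTc false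
        have t1 := hTc true
        set n : ℝ := (Fintype.card V : ℝ) with hn
        set D : ℝ := (Fintype.card S : ℝ) with hDD
        set x : ℝ := ((T false).card : ℝ) with hx
        set y : ℝ := ((T true).card : ℝ) with hy
        have hx0 : 0 ≤ x := Nat.cast_nonneg _
        have hy0 : 0 ≤ y := Nat.cast_nonneg _
        have main : ∀ x y : ℝ, 0 ≤ x → 0 ≤ y → y ≤ x → y ≤ theta * n →
            x * (δ * D) ≤ 2 * (edg g (T false) (T true) : ℝ) →
            (edg g (T false) (T true) : ℝ) ≤ D * (x * y / n + lam / 2 * (x + y)) → x = 0 := by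
          intro x y hx0 hy0 hyx hyt h6 h7
          by_contra hx1
          have hx2 : 0 < x := lt_of_le_of_ne hx0 (Ne.symm hx1)
          have e1 : x * y / n ≤ theta * x := by
            rw [div_le_iff₀ hV']
            nlinarith [mul_le_mul_of_nonneg_left hyt hx0]
          have e2 : lam / 2 * (x + y) ≤ lam * x := by nlinarith
          have e3 : (edg g (T false) (T true) : ℝ) ≤ D * ((theta + lam) * x) :=
            h7.trans (mul_le_mul_of_nonneg_left (by linarith) hS'.le)
          have e4 : x * D * δ ≤ x * D * (2 * (theta + lam)) := by nlinarith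
          have e5 := le_of_mul_le_mul_left e4 (by positivity)
          linarith
        rcases le_total y x with hyx | hxy
        · have hx1 := main x y hx0 hy0 hyx t1 hedg0 h5
          have hy1 : y = 0 := le_antisymm (hx1 ▸ hyx) hy0
          exact ⟨(Nat.cast_eq_zero (R := ℝ)).1 hx1, (Nat.cast_eq_zero (R := ℝ)).1 hy1⟩
        · have hy1 := main y x hy0 hx0 hxy t0 hedg1 (by rw [mul_comm y x, add_comm y x]; exact h5)
          have hx1 : x = 0 := le_antisymm (hy1 ▸ hxy) hx0
          exact ⟨(Nat.cast_eq_zero (R := ℝ)).1 hx1, (Nat.cast_eq_zero (R := ℝ)).1 hy1⟩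
      rintro ⟨v, s⟩ hvs
      rw [mem_product]
      refine ⟨?_, mem_univ _⟩
      by_contra hv
      have : v ∈ T false := mem_sdiff.2 ⟨mem_tch_false hvs, hv⟩
      rw [card_eq_zero.1 hTemp.1] at this
      simp at this

end tanner

end Vale.Agent.P330.W
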